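import Vale.Agent.P032.H535.Seven
import Vale.Agent.P032.H909.Ctn

/-!
# P032: free hypotheses for the open statements of the wild frame, orders of the stages

* `NoDc` : two-pair points with connected germs at the point and soft walls on dyadic lines (909, 849);
* `NoXs` : points with at least five colours, soft walls on dyadic lines;
* `NoX0`, `NoD0` : the other order of the stages (first the points with at least five colours);
* `NoFrame.of_*` : every combination gives `NoFrame`.
-/

open Set Filter Topology Metric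

noncomputable section

namespace Vale.Agent.P032.H535

open Vale.Agent.P032.Six

/-- no unit pair of a two-pair point and a point with at least four colours -/
def NDp (T : ℂ → Set (Fin 6)) : Prop :=
  ∀ z v a b c d, DPt T z a b c d → dist z v = 1 → 4 ≤ (T v).ncard → False

/-- no unit pair of a point with at least five colours and a point with at least four colours -/
def NXp (T : ℂ → Set (Fin 6)) : Prop :=
  ∀ z v, dist z v = 1 → 5 ≤ (T z).ncard → 4 ≤ (T v).ncard → False

/-- the core of the library in this notation -/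
theorem core {U : Fin 6 → Set ℂ} {T : ℂ → Set (Fin 6)} (h : Irr U T) (hmin : Mn U T)
    (hD : NDp T) (hX : NXp T) : False :=
  S5.H843.core6 S5.H229.no_five noSix h hmin fun z v h1 h2 h3 => by
    rcases h3 with h3 | ⟨a, b, c, d, h3⟩
    · exact hX z v h1 h3 h2
    · exact hD z v a b c d h3 h1 h2

/-- palettes with at least four colours are kept by smaller palettes -/
theorem eq_of_sub {U : Fin 6 → Set ℂ} {T T' : ℂ → Set (Fin 6)} (h : Irr U T) (hmin : Mn U T)
    (h' : Irr U T') (hs : ∀ x ∈ XX U, T' x ⊆ T x) {x : ℂ} (hx : 4 ≤ (T x).ncard) :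
    T' x = T x := by
  have hX : x ∈ XX U := by
    by_contra hX
    have := h.ncard_off hX
    omega
  by_contra hne
  exact hmin x hx _ (hs x hX) hne (h'.suff x)

/-! ### first the two-pair points -/

/-- two-pair points: with connected germs at the point and soft walls on dyadic lines -/
def NoDc : Prop :=
  ∀ (U : Fin 6 → Set ℂ) (T : ℂ → Set (Fin 6)), Irr U T → Mn U T → Ln U T →
    ∀ z v a b c d, Ctn U T z → DPt T z a b c d → dist z v = 1 → 4 ≤ (T v).ncard → False

theorem NoDc.noDV (hD : NoDc) : NoDV := fun U T h hmin z v a b c d hz hv h4 =>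
  H909.noDV_of_ctn (fun U T z v a b c d h1 h2 h3 h4 h5 h6 h7 =>
    hD U T h1 h2 h3 z v a b c d h4 h5 (by rw [dist_comm]; exact h6) h7) h hmin hz
    (by rw [dist_comm]; exact hv) h4

/-- points with at least five colours after the two-pair points: soft walls on dyadic lines -/
def NoXs : Prop :=
  ∀ (U : Fin 6 → Set ℂ) (T : ℂ → Set (Fin 6)), Irr U T → Mn U T → Ln U T → NDp T → NXp T

theorem NoXs.noXV (hD : NoDV) (hX : NoXs) : NoXV := by
  intro U T h hmin _ z v hzv hz hv
  obtain ⟨T', k1, k2, k3, k4, -, -⟩ := h.exists_soft6 hmin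
  have ez : T' z = T z := eq_of_sub h hmin k1 k3 (by omega)
  have ev : T' v = T v := eq_of_sub h hmin k1 k3 hv
  exact hX U T' k1 k2 k4 (hD U T' k1 k2) z v hzv (by rw [ez]; exact hz) (by rw [ev]; exact hv)

theorem NoFrame.of_DX (hD : NoDc) (hX : NoXs) : NoFrame :=
  NoFrame.of_pair hD.noDV (hX.noXV hD.noDV)

/-! ### first the points with at least five colours -/

/-- points with at least five colours first -/
def NoX0 : Prop :=
  ∀ (U : Fin 6 → Set ℂ) (T : ℂ → Set (Fin 6)), Irr U T → Mn U T → Ln U T → NXp T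

/-- two-pair points after the points with at least five colours: on the circle of the two-pair point
all points have at most four colours -/
def NoD0 : Prop :=
  ∀ (U : Fin 6 → Set ℂ) (T : ℂ → Set (Fin 6)), Irr U T → Mn U T → Ln U T → NXp T →
    ∀ z v a b c d, Ctn U T z → (∀ y, dist z y = 1 → (T y).ncard ≤ 4) →
      (∀ y, dist v y = 1 → (T y).ncard ≤ 4) → DPt T z a b c d → dist z v = 1 →
        (T v).ncard = 4 → False

theorem NoX0.all (hX : NoX0) {U : Fin 6 → Set ℂ} {T : ℂ → Set (Fin 6)} (h : Irr U T)
    (hmin : Mn U T) : NXp T := by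
  intro z v hzv hz hv
  obtain ⟨T', k1, k2, k3, k4, -, -⟩ := h.exists_soft6 hmin
  have ez : T' z = T z := eq_of_sub h hmin k1 k3 (by omega)
  have ev : T' v = T v := eq_of_sub h hmin k1 k3 hv
  exact hX U T' k1 k2 k4 z v hzv (by rw [ez]; exact hz) (by rw [ev]; exact hv)

theorem ncard_DPt {T : ℂ → Set (Fin 6)} {z : ℂ} {a b c d : Fin 6} (hz : DPt T z a b c d) :
    (T z).ncard = 4 := by
  rw [hz.pal, Set.ncard_insert_of_notMem, Set.ncard_insert_of_notMem, Set.ncard_pair hz.cd]
  · simp only [mem_insert_iff, mem_singleton_iff, not_or]; exact ⟨hz.bc, hz.bd⟩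
  · simp only [mem_insert_iff, mem_singleton_iff, not_or]; exact ⟨hz.ab, hz.ac, hz.ad⟩

theorem NoFrame.of_XD (hX : NoX0) (hD : NoD0) : NoFrame := by
  intro U T h hmin
  refine core h hmin (fun z v a b c d hz hzv hv => ?_) (hX.all h hmin)
  refine H909.noDV_of_ctn (fun U T z v a b c d h1 h2 h3 h4 h5 h6 h7 => ?_) h hmin hz
    (by rw [dist_comm]; exact hzv) hv
  have hN : NXp T := hX.all h1 h2
  have hz4 : (T z).ncard = 4 := ncard_DPt h5
  have h8 : ∀ y, dist z y = 1 → (T y).ncard ≤ 4 := by
    intro y hy
    by_contra hcon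
    exact hN y z (by rw [dist_comm]; exact hy) (by omega) hz4.ge
  have h9 : ∀ y, dist v y = 1 → (T y).ncard ≤ 4 := by
    intro y hy
    by_contra hcon
    exact hN y v (by rw [dist_comm]; exact hy) (by omega) h7
  have h10 := h8 v (by rw [dist_comm]; exact h6)
  exact hD U T h1 h2 h3 hN z v a b c d h4 h8 h9 h5 (by rw [dist_comm]; exact h6) (by omega)

/-- the first two-pair statement is stronger -/
theorem NoDc.noD0 (hD : NoDc) : NoD0 := fun U T h hmin hl _ z v a b c d hc _ _ hz hzv hv =>
  hD U T h hmin hl z v a b c d hc hz hzv hv.ge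

/-! ### the case of six colours separately -/

/-- six-coloured points after the two-pair points -/
def NoX6 : Prop :=
  ∀ (U : Fin 6 → Set ℂ) (T : ℂ → Set (Fin 6)), Irr U T → Mn U T → Ln U T → NDp T →
    ∀ z v, dist z v = 1 → (T z).ncard = 6 → 4 ≤ (T v).ncard → False

/-- five-coloured points after the two-pair points and the six-coloured points -/
def NoX5 : Prop :=
  ∀ (U : Fin 6 → Set ℂ) (T : ℂ → Set (Fin 6)), Irr U T → Mn U T → Ln U T → NDp T →
    (∀ z v, dist z v = 1 → (T z).ncard = 6 → 4 ≤ (T v).ncard → False) →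
    ∀ z v, dist z v = 1 → (T z).ncard = 5 → 4 ≤ (T v).ncard → False

theorem NoX6.noXs (h6 : NoX6) (h5 : NoX5) : NoXs := by
  intro U T h hmin hl hD z v hzv hz hv
  have h1 := Set.ncard_le_ncard (s := T z) (t := univ) (subset_univ _) (Set.toFinite _)
  rw [Set.ncard_univ, Nat.card_eq_fintype_card, Fintype.card_fin] at h1
  rcases Nat.lt_or_ge (T z).ncard 6 with h2 | h2
  · exact h5 U T h hmin hl hD (h6 U T h hmin hl hD) z v hzv (by omega) hv
  · exact h6 U T h hmin hl hD z v hzv (by omega) hv

end Vale.Agent.P032.H535
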