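import Vale.Agent.P032.H535.Adapt
import Vale.Agent.P032.H815.GenArc
import Vale.Agent.P032.H725.Nn

/-!
# P032: the open statements with a property `P` of the six sets as an additional free hypothesis

`Free P`: six open sets without unit distances and with dense union give a frame whose sets have `P`
(`free_true`, `free_gen`, `free_sc`).  `NoFrameP P` is enough for seven colours; it follows from each order of
the stages.
-/

open Set Filter Topology Metric

noncomputable section

namespace Vale.Agent.P032.H535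

open Vale.Agent.P032.Six

/-- a property of the six sets which can be assumed -/
def Free (P : (Fin 6 → Set ℂ) → Prop) : Prop :=
  ∀ W : Fin 6 → Set ℂ, H815.Sol W → ∃ U T, Irr U T ∧ Mn U T ∧ P U

theorem free_gen : Free H815.Gen := fun _ hW => H815.exists_irr_gen hW

/-- 725's scale property together with 815's -/
theorem free_sc : Free fun U => H725.Sc U ∧ H815.Gen U := fun _ hW => by
  obtain ⟨U, T, h1, h2, h3, h4⟩ := H725.exists_irr_sc hW
  exact ⟨U, T, h1, h2, h3, h4⟩

theorem free_true : Free fun _ => True := fun _ hW => by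
  obtain ⟨U, T, h1, h2, -⟩ := H815.exists_irr_gen hW
  exact ⟨U, T, h1, h2, trivial⟩

/-- no frame whose sets have `P` -/
def NoFrameP (P : (Fin 6 → Set ℂ) → Prop) : Prop :=
  ∀ (U : Fin 6 → Set ℂ) (T : ℂ → Set (Fin 6)), Irr U T → Mn U T → P U → False

variable {P : (Fin 6 → Set ℂ) → Prop}

theorem NoFrameP.noSixOpen (hP : Free P) (H : NoFrameP P) : NoSixOpen := fun W hW h hd => by
  obtain ⟨U, T, h1, h2, h3⟩ := hP W ⟨hW, h, hd⟩
  exact H U T h1 h2 h3

/-- **The chromatic number of the plane is seven.** -/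
theorem NoFrameP.seven (hP : Free P) (H : NoFrameP P) (k : ℕ) :
    (∃ c : EuclideanSpace ℝ (Fin 2) → Fin k,
      ∀ x y : EuclideanSpace ℝ (Fin 2), dist x y = 1 → c x ≠ c y) ↔ 7 ≤ k :=
  chi_seven (H.noSixOpen hP) k

/-! ### first the two-pair points -/

/-- two-pair points: with connected germs at the point and soft walls on dyadic lines -/
def NoDcP (P : (Fin 6 → Set ℂ) → Prop) : Prop :=
  ∀ (U : Fin 6 → Set ℂ) (T : ℂ → Set (Fin 6)), Irr U T → Mn U T → P U → Ln U T →
    ∀ z v a b c d, Ctn U T z → DPt T z a b c d → dist z v = 1 → 4 ≤ (T v).ncard → False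

/-- 909's theorem with `P` -/
theorem NoDcP.all (hD : NoDcP P) {U : Fin 6 → Set ℂ} {T : ℂ → Set (Fin 6)} (h : Irr U T)
    (hmin : Mn U T) (hP : P U) : NDp T := by
  intro z v a b c d hz hzv hv
  obtain ⟨T', h1, h2, h3, h4, h5, -, -, h8⟩ := H909.exists_ctn_soft h hmin hz one_pos
  have e : T' v = T v := h8 v (by rw [mem_ball, dist_comm, hzv]; norm_num) hv
  exact hD U T' h1 h2 hP h5 z v a b c d h4 h3 hzv (by rw [e]; exact hv)

/-- points with at least five colours after the two-pair points: soft walls on dyadic lines -/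
def NoXsP (P : (Fin 6 → Set ℂ) → Prop) : Prop :=
  ∀ (U : Fin 6 → Set ℂ) (T : ℂ → Set (Fin 6)), Irr U T → Mn U T → P U → Ln U T → NDp T → NXp T

theorem NoFrameP.of_DX (hD : NoDcP P) (hX : NoXsP P) : NoFrameP P := by
  intro U T h hmin hP
  refine core h hmin (hD.all h hmin hP) fun z v hzv hz hv => ?_
  obtain ⟨T', k1, k2, k3, k4, -, -⟩ := h.exists_soft6 hmin
  have ez : T' z = T z := eq_of_sub h hmin k1 k3 (by omega)
  have ev : T' v = T v := eq_of_sub h hmin k1 k3 hv
  exact hX U T' k1 k2 hP k4 (hD.all k1 k2 hP) z v hzv (by rw [ez]; exact hz) (by rw [ev]; exact hv)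

/-! ### first the points with at least five colours -/

/-- points with at least five colours first -/
def NoX0P (P : (Fin 6 → Set ℂ) → Prop) : Prop :=
  ∀ (U : Fin 6 → Set ℂ) (T : ℂ → Set (Fin 6)), Irr U T → Mn U T → P U → Ln U T → NXp T

theorem NoX0P.all (hX : NoX0P P) {U : Fin 6 → Set ℂ} {T : ℂ → Set (Fin 6)} (h : Irr U T)
    (hmin : Mn U T) (hP : P U) : NXp T := by
  intro z v hzv hz hv
  obtain ⟨T', k1, k2, k3, k4, -, -⟩ := h.exists_soft6 hmin
  have ez : T' z = T z := eq_of_sub h hmin k1 k3 (by omega)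
  have ev : T' v = T v := eq_of_sub h hmin k1 k3 hv
  exact hX U T' k1 k2 hP k4 z v hzv (by rw [ez]; exact hz) (by rw [ev]; exact hv)

/-- two-pair points after the points with at least five colours: on the circles of the two-pair
point and of the second point all points have at most four colours -/
def NoD0P (P : (Fin 6 → Set ℂ) → Prop) : Prop :=
  ∀ (U : Fin 6 → Set ℂ) (T : ℂ → Set (Fin 6)), Irr U T → Mn U T → P U → Ln U T → NXp T →
    ∀ z v a b c d, Ctn U T z → (∀ y, dist z y = 1 → (T y).ncard ≤ 4) →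
      (∀ y, dist v y = 1 → (T y).ncard ≤ 4) → DPt T z a b c d → dist z v = 1 →
        (T v).ncard = 4 → False

theorem NoFrameP.of_XD (hX : NoX0P P) (hD : NoD0P P) : NoFrameP P := by
  intro U T h hmin hP
  refine core h hmin (fun z v a b c d hz hzv hv => ?_) (hX.all h hmin hP)
  obtain ⟨T', h1, h2, h3, h4, h5, -, -, h8⟩ := H909.exists_ctn_soft h hmin hz one_pos
  have e : T' v = T v := h8 v (by rw [mem_ball, dist_comm, hzv]; norm_num) hv
  have hv' : 4 ≤ (T' v).ncard := by rw [e]; exact hv
  have hN : NXp T' := hX.all h1 h2 hP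
  have hz4 : (T' z).ncard = 4 := ncard_DPt h3
  have h9 : ∀ y, dist z y = 1 → (T' y).ncard ≤ 4 := by
    intro y hy
    by_contra hcon
    exact hN y z (by rw [dist_comm]; exact hy) (by omega) hz4.ge
  have h10 : ∀ y, dist v y = 1 → (T' y).ncard ≤ 4 := by
    intro y hy
    by_contra hcon
    exact hN y v (by rw [dist_comm]; exact hy) (by omega) hv'
  have h11 := h9 v hzv
  exact hD U T' h1 h2 hP h5 hN z v a b c d h4 h9 h10 h3 hzv (by omega)

end Vale.Agent.P032.H535
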