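import Vale.Agent.P032.H535.IsoK

/-!
# P032: block 2 (local form) from the finite systems

`noAltLoc_of` : from `SysR m N Q 0 → False` and a theorem which excludes isolated minimal pairs.
-/

open Set Filter Topology Metric

noncomputable section

namespace Vale.Agent.P032.H535

open Vale.Agent.P032.Six Vale.Agent.P032.S5.H926 Vale.Agent.P032.S5.H843 Vale.Agent.P032.S5.H138
  Vale.Agent.P032.S5.H306 Vale.Agent.P032.R2.H306 Vale.Agent.P032.H89 Vale.Agent.P032.S5.H767

/-- no isolated minimal pairs -/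
def NoIsoPair : Prop :=
  ∀ (U : Fin 6 → Set ℂ) (T : ℂ → Set (Fin 6)), Irr U T → Mn U T →
    ∀ (O : Set ℂ) (m : Fin 6) (z : ℂ) (s : ℝ), IsOpen O → IsoPair T O m z s →
      (∀ q, dist q z = 1 → ¬ Biex T q) → False

/-- **Block 2, local form.** -/
theorem noAltLoc_of (F : ∀ (m : Fin 6) (N : Option (Fin 6) → Set (Fin 6)) (Q : Set State),
    SysR m N Q 0 → False) (G : NoIsoPair) : NoAltLoc 2 := by
  intro U T h hmin z m hz hb hw
  have hN : ∀ y ∈ ball z 1, ∀ m₁, T y = {m₁}ᶜ → ¬ Biex T y → ∀ q, dist q y = 1 → ¬ Biex T q := by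
    intro y hy m₁ hm₁ _ q hq
    refine hw q ?_ y hq (by rw [hm₁, card_compl]; norm_num)
    have h8 := dist_triangle q y z
    rw [mem_ball] at hy
    linarith
  obtain ⟨m', z', s, hp⟩ := exists_isoPair h hmin F (O := ball z 1) isOpen_ball hN
    (mem_ball_self one_pos) hz hb
  exact G U T h hmin (ball z 1) m' z' s isOpen_ball hp (hN z' hp.mem m' hp.pal hp.nb)

end Vale.Agent.P032.H535
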