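import Vale.Agent.P032.H535.PerfG
import Vale.Agent.P032.H246.NoSys

/-!
# P032: block 2 (local form) from a theorem on isolated switching directions
-/

open Set Filter Topology Metric

noncomputable section

namespace Vale.Agent.P032.H535

open Vale.Agent.P032.Six Vale.Agent.P032.S5.H843 Vale.Agent.P032.H89 Vale.Agent.P032.S5.H767

/-- the perfect case -/
theorem noPerfLoc_one : NoPerfLoc 1 :=
  noPerfLoc_of fun m N Q h => Vale.Agent.P032.H246.no_sys m N Q h

/-- no isolated switching directions, if `z` and the points of `S(z)` are not biexact -/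
def NoIsoSwitch : Prop :=
  ∀ (U : Fin 6 → Set ℂ) (T : ℂ → Set (Fin 6)), Irr U T → Mn U T →
    ∀ (z : ℂ) (m : Fin 6) (s : ℝ), T z = {m}ᶜ → ¬ Biex T z → (∀ q, dist q z = 1 → ¬ Biex T q) →
      s ∈ Sg T z m → (∃ ε > 0, ∀ s' ∈ Sg T z m, |s' - s| < ε → s' = s) → False

/-- **Block 2, local form.** -/
theorem noAltLoc_one (G : NoIsoSwitch) : NoAltLoc 1 := by
  intro U T h hmin z m hz hb hw
  obtain ⟨s, hs, hi⟩ := noPerfLoc_one U T h hmin z m hz hb hw
  exact G U T h hmin z m s hz hb (nb_of_world hz hw) hs hi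

end Vale.Agent.P032.H535
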