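import Vale.Agent.P032.R2.H306.DiscPair
import Vale.Agent.P032.H89.Dich

/-!
# P032: biexact points, statement in the plane

`Ex U y s` : the sets with index in `s` suffice near `y`, and no proper subfamily of them does.
`BV U x` : `x` has a minimal sufficient set `P`, and two arcs of the unit circle about `x` have
constant disjoint minimal sufficient sets `A`, `B` inside `P`.
`disc_biex` : from a theorem on irredundant covers without biexact points near a point, every disc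
of a certain radius contains a limit of biexact points near which no three of the sets suffice, with
another such point at distance one.
-/

open Set Filter Topology Metric

noncomputable section

namespace Vale.Agent.P032.H535

open Vale.Agent.P032.Six Vale.Agent.P032.S5.H926 Vale.Agent.P032.S5.H843 Vale.Agent.P032.S5.H138
  Vale.Agent.P032.S5.H306 Vale.Agent.P032.R2.H306 Vale.Agent.P032.H89

/-- the sets with index in `s` suffice near `y`, and no proper subfamily of them does -/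
def Ex {E : Type*} [PseudoMetricSpace E] (U : Fin 6 → Set E) (y : E) (s : Set (Fin 6)) : Prop :=
  y ∉ closure ((⋃ j, U j) \ ⋃ i ∈ s, U i) ∧
    ∀ s' ⊂ s, y ∈ closure ((⋃ j, U j) \ ⋃ i ∈ s', U i)

/-- a biexact point with a minimal sufficient set `P` of `n` indices -/
def BV {E : Type*} [PseudoMetricSpace E] (U : Fin 6 → Set E) (n : ℕ) (x : E) : Prop :=
  ∃ P A B : Set (Fin 6), P.ncard = n ∧ A ⊆ P ∧ B ⊆ P ∧ Disjoint A B ∧ 2 ≤ A.ncard ∧
    2 ≤ B.ncard ∧ Ex U x P ∧ ∃ p q, dist p x = 1 ∧ dist q x = 1 ∧ ∃ r > 0,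
      (∀ y, dist y x = 1 → dist y p < r → Ex U y A) ∧
      ∀ y, dist y x = 1 → dist y q < r → Ex U y B

/-- a point with a minimal sufficient set of `n` indices -/
def PV {E : Type*} [PseudoMetricSpace E] (U : Fin 6 → Set E) (n : ℕ) (x : E) : Prop :=
  ∃ P : Set (Fin 6), P.ncard = n ∧ Ex U x P

section frame

variable {U : Fin 6 → Set ℂ} {T : ℂ → Set (Fin 6)}

/-- one set does not suffice near a point of the circle -/
theorem not_single (h : Irr U T) {z p : ℂ} {a : Fin 6} (hpz : dist p z = 1) (haz : a ∈ T z)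
    (hp : ∀ᶠ w in 𝓝 p, w ∈ closure (U a)) : False := by
  have hpa : p ∈ U a := by
    refine h.max a p fun y hy hpy => ?_
    obtain ⟨r, hr, hball⟩ := Metric.eventually_nhds_iff.1 hp
    obtain ⟨y', hy', hyy⟩ := Metric.mem_closure_iff.1 hy r hr
    have h1 : p + (y' - y) ∈ closure (U a) := by
      refine hball ?_
      rw [dist_eq_norm, add_sub_cancel_left, ← dist_eq_norm, dist_comm]
      exact hyy
    refine h.mx.free a y' hy' _ h1 ?_
    rw [dist_eq_norm] at hpy ⊢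
    rw [← hpy, ← norm_neg]
    congr 1
    ring
  exact h.mx.free a p hpa z (h.sub z haz) hpz

/-- an exact arc contains an arc with a constant minimal sufficient set -/
theorem arc_min (h : Irr U T) (hd : Dense (⋃ i, U i)) {z q : ℂ} (hq : Ext T z q) :
    ∃ A ⊆ T q, 2 ≤ A.ncard ∧ ∃ p, dist p z = 1 ∧ ∃ r > 0,
      ∀ y, dist y z = 1 → dist y p < r → Ex U y A := by
  obtain ⟨hqz, hJ, hs⟩ := hq
  rw [eventually_nhdsWithin_iff, Metric.eventually_nhds_iff] at hJ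
  obtain ⟨r, hr, hqr⟩ := hJ
  let S : Set ℕ := {n | ∃ y s, dist y z = 1 ∧ dist y q < r ∧ s ⊆ T q ∧ s.ncard = n ∧
    y ∉ closure ((⋃ j, U j) \ ⋃ i ∈ s, U i)}
  have hS : S.Nonempty :=
    ⟨_, q, T q, hqz, by rw [dist_self]; exact hr, Subset.rfl, rfl, Irr_suff h q⟩
  obtain ⟨p, A, hpz, hpq, hA, hn, hpA⟩ := Nat.sInf_mem hS
  have hmin : ∀ y s, dist y z = 1 → dist y q < r → s ⊆ T q →
      y ∉ closure ((⋃ j, U j) \ ⋃ i ∈ s, U i) → A.ncard ≤ s.ncard := by
    intro y s h1 h2 h3 h4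
    rw [hn]
    exact Nat.sInf_le ⟨y, s, h1, h2, h3, rfl, h4⟩
  refine ⟨A, hA, ?_, p, hpz, ?_⟩
  · by_contra hcon
    have h1 : A.ncard ≤ 1 := by omega
    have h2 := suf_of_notMem hd hpA
    rcases (Set.ncard_le_one_iff_eq (Set.toFinite A)).1 h1 with rfl | ⟨a, rfl⟩
    · obtain ⟨w, i, hi, -⟩ := h2.exists
      exact hi
    · refine not_single h hpz (hs (hA (mem_singleton a))) (h2.mono fun w hw => ?_)
      obtain ⟨i, hi, hw⟩ := hw
      have hi' : i = a := hi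
      subst hi'
      exact hw.elim (fun h => subset_closure h) fun h => h.2
  · obtain ⟨r₁, hr₁, h1⟩ := Metric.isOpen_iff.1 isClosed_closure.isOpen_compl p hpA
    refine ⟨min r₁ (r - dist p q), lt_min hr₁ (by linarith), fun y hyz hyp => ⟨?_, ?_⟩⟩
    · exact h1 (mem_ball.2 (hyp.trans_le (min_le_left _ _)))
    · intro s' hs'
      by_contra hcon
      have h2 : dist y q < r := by
        have h3 := dist_triangle y p q
        have h4 := hyp.trans_le (min_le_right r₁ (r - dist p q))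
        linarith
      have h3 := hmin y s' hyz h2 (hs'.subset.trans hA) hcon
      have h4 := Set.ncard_lt_ncard hs' (Set.toFinite A)
      omega

/-- a palette of at least four colours is a minimal sufficient set -/
theorem Ex_of_T (h : Irr U T) (hmin : Mn U T) (hd : Dense (⋃ i, U i)) {z : ℂ}
    (hz : 4 ≤ (T z).ncard) : Ex U z (T z) := by
  refine ⟨Irr_suff h z, fun s hs => ?_⟩
  by_contra hcon
  exact hmin z hz s hs.subset hs.ne (suf_of_notMem hd hcon)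

theorem four_of_Biex (h : Irr U T) {z : ℂ} (hz : Biex T z) : 4 ≤ (T z).ncard := by
  obtain ⟨p, q, hp, hq, hd⟩ := hz
  have h1 := (hp.two h).1
  have h2 := (hq.two h).1
  have h3 := Set.ncard_union_eq hd (Set.toFinite _) (Set.toFinite _)
  have h4 := Set.ncard_le_ncard (union_subset hp.2.2 hq.2.2) (Set.toFinite (T z))
  omega

theorem BV_of_Biex (h : Irr U T) (hmin : Mn U T) (hd : Dense (⋃ i, U i)) {z : ℂ}
    (hz : Biex T z) : BV U (T z).ncard z := by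
  have h4 := four_of_Biex h hz
  obtain ⟨p, q, hp, hq, hpq⟩ := hz
  obtain ⟨A, hA, hA2, p', hp', r, hr, hAr⟩ := arc_min h hd hp
  obtain ⟨B, hB, hB2, q', hq', r', hr', hBr⟩ := arc_min h hd hq
  exact ⟨T z, A, B, rfl, hA.trans hp.2.2, hB.trans hq.2.2, hpq.mono hA hB, hA2, hB2,
    Ex_of_T h hmin hd h4, p', q', hp', hq', min r r', lt_min hr hr',
    fun y h1 h2 => hAr y h1 (h2.trans_le (min_le_left _ _)),
    fun y h1 h2 => hBr y h1 (h2.trans_le (min_le_right _ _))⟩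

/-- a two-pair point is biexact -/
theorem biex_of_DPt {z : ℂ} {a b c d : Fin 6} (h : DPt T z a b c d) : Biex T z := by
  obtain ⟨p, hp1, hp2⟩ := h.arc1
  obtain ⟨q, hq1, hq2⟩ := h.arc2
  have hp3 : T p = {a, b} := hp2.self_of_nhdsWithin hp1
  have hq3 : T q = {c, d} := hq2.self_of_nhdsWithin hq1
  refine ⟨p, q, ⟨hp1, hp2.mono fun y hy => by rw [hy, hp3], ?_⟩,
    ⟨hq1, hq2.mono fun y hy => by rw [hy, hq3], ?_⟩, ?_⟩
  · rw [hp3, h.pal]
    rintro i (rfl | rfl)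
    · exact Or.inl rfl
    · exact Or.inr (Or.inl rfl)
  · rw [hq3, h.pal]
    rintro i (rfl | rfl)
    · exact Or.inr (Or.inr (Or.inl rfl))
    · exact Or.inr (Or.inr (Or.inr rfl))
  · rw [hp3, hq3, Set.disjoint_left]
    rintro i (rfl | rfl) (h1 | h1)
    exacts [h.ac h1, h.ad h1, h.bc h1, h.bd h1]

end frame

/-- no point `z` with `T z = {m}ᶜ` which is not biexact, if within distance `ρ` of `z` there are no
biexact points with a unit neighbour of at least four colours -/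
def NoAltLoc (ρ : ℝ) : Prop :=
  ∀ (U : Fin 6 → Set ℂ) (T : ℂ → Set (Fin 6)), Irr U T → Mn U T → ∀ z m, T z = {m}ᶜ →
    ¬ Biex T z → (∀ w, dist w z ≤ ρ → ∀ v, dist w v = 1 → 4 ≤ (T v).ncard → ¬ Biex T w) → False

/-- **The core.** -/
theorem biex_core {ρ : ℝ} (hρ : 0 ≤ ρ) (hA : NoAltLoc ρ) (H6 : NoSixALoc) (HA : ActLoc)
    {U : Fin 6 → Set ℂ} {T : ℂ → Set (Fin 6)} (h : Irr U T) (hmin : Mn U T) (c : ℂ)
    (hU : ∀ z, dist z c ≤ 38 + ρ → ∀ v, dist z v = 1 → 4 ≤ (T v).ncard → ¬ Biex T z) :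
    False := by
  refine disc_pair_core H6 HA h hmin c fun z hz v hzv hv hcase => ?_
  have hb : ¬ Biex T z := hU z (by linarith) v hzv hv
  rcases hcase with h5 | ⟨a, b, c', d, hD⟩
  · by_cases h6 : ∀ i, i ∈ T z
    · exact hb (biex_six h h6)
    · push Not at h6
      obtain ⟨m, hm⟩ := h6
      have h7 : T z = {m}ᶜ := by
        refine Set.eq_of_subset_of_ncard_le (fun i hi => ?_) ?_ (Set.toFinite _)
        · rintro rfl; exact hm hi
        · have h8 : ({m}ᶜ : Set (Fin 6)).ncard = 5 := by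
            rw [Set.ncard_compl, Set.ncard_singleton, Nat.card_eq_fintype_card, Fintype.card_fin]
          omega
      refine hA U T h hmin z m h7 hb fun w hw v' hwv hv' => hU w ?_ v' hwv hv'
      have := dist_triangle w z c
      linarith
  · exact hb (biex_of_DPt hD)

/-- **The frame**: the points with more than `n` colours in given open sets. -/
theorem exists_T_open {U : Fin 6 → Set ℂ}
    (hU : ∀ i, Maximal (fun W : Set ℂ => IsOpen W ∧ ∀ x ∈ W, ∀ y ∈ W, dist x y ≠ 1) (U i))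
    (hd : Dense (⋃ i, U i)) {O : ℕ → Set ℂ} (hO : ∀ n, IsOpen (O n))
    (hX : ∀ n, 3 ≤ n → XU U n ⊆ O n) :
    ∃ T, Irr U T ∧ Mn U T ∧ ∀ v n, 3 ≤ n → n < (T v).ncard → v ∈ O n := by
  classical
  set N : ℂ → ℕ := fun x =>
    if x ∈ O 3 then (if x ∈ O 4 then (if x ∈ O 5 then 6 else 5) else 4) else 3 with hNdef
  have hNs : ∀ x, ∀ᶠ w in 𝓝 x, N x ≤ N w := by
    intro x
    by_cases hx : x ∈ O 3
    · by_cases hx4 : x ∈ O 4
      · by_cases hx5 : x ∈ O 5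
        · filter_upwards [(hO 3).mem_nhds hx, (hO 4).mem_nhds hx4, (hO 5).mem_nhds hx5]
            with w hw hw4 hw5
          simp only [hNdef, if_pos hx, if_pos hx4, if_pos hx5, if_pos hw, if_pos hw4, if_pos hw5,
            le_refl]
        · filter_upwards [(hO 3).mem_nhds hx, (hO 4).mem_nhds hx4] with w hw hw4
          simp only [hNdef, if_pos hx, if_pos hx4, if_neg hx5, if_pos hw, if_pos hw4]
          split_ifs <;> omega
      · filter_upwards [(hO 3).mem_nhds hx] with w hw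
        simp only [hNdef, if_pos hx, if_neg hx4, if_pos hw]
        split_ifs <;> omega
    · filter_upwards with w
      simp only [hNdef, if_neg hx]
      split_ifs <;> omega
  have hN3 : ∀ x, 3 ≤ N x := by
    intro x
    simp only [hNdef]
    split_ifs <;> omega
  have hex : ∀ n z, z ∉ XU U n → ∃ s : Set (Fin 6), s.ncard ≤ n ∧
      ∀ᶠ w in 𝓝 z, ∃ i ∈ s, w ∈ U i ∨ (w ∈ XX U ∧ i ∈ Pal U w) := by
    intro n z hz
    simp only [XU, mem_ofPred_eq] at hz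
    push Not at hz
    obtain ⟨s, hs, hsz⟩ := hz
    exact ⟨s, hs, suf_of_notMem hd hsz⟩
  have hall : ∀ z : ℂ, ∃ s : Set (Fin 6), s.ncard ≤ 6 ∧
      ∀ᶠ w in 𝓝 z, ∃ i ∈ s, w ∈ U i ∨ (w ∈ XX U ∧ i ∈ Pal U w) := by
    intro z
    refine ⟨univ, (Set.ncard_le_card _).trans (by simp), suf_of_notMem hd ?_⟩
    have : (⋃ j, U j) \ ⋃ i ∈ (univ : Set (Fin 6)), U i = ∅ := by
      rw [sdiff_eq_empty]
      exact fun x hx => by
        obtain ⟨j, hj⟩ := mem_iUnion.1 hx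
        exact mem_iUnion₂.2 ⟨j, mem_univ j, hj⟩
    rw [this, closure_empty]
    exact notMem_empty z
  obtain ⟨T, hT, hmin, hle⟩ := exists_frameN (Mx_of_maximal hU hd)
    (fun i x hx => (mem_iff_of_maximal (hU i) x).2 hx) hNs hN3 (fun z _ => by
      by_cases hz : z ∈ O 3
      · by_cases hz4 : z ∈ O 4
        · by_cases hz5 : z ∈ O 5
          · simpa only [hNdef, if_pos hz, if_pos hz4, if_pos hz5] using hall z
          · simpa only [hNdef, if_pos hz, if_pos hz4, if_neg hz5] using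
              hex 5 z fun h => hz5 (hX 5 (by norm_num) h)
        · simpa only [hNdef, if_pos hz, if_neg hz4] using
            hex 4 z fun h => hz4 (hX 4 (by norm_num) h)
      · simpa only [hNdef, if_neg hz] using hex 3 z fun h => hz (hX 3 le_rfl h))
  refine ⟨T, hT, hmin, fun v n hn hv => ?_⟩
  have h1 := hle v
  have h6 : (T v).ncard ≤ 6 := (Set.ncard_le_card _).trans (by simp)
  by_contra hcon
  obtain rfl | rfl | rfl : n = 3 ∨ n = 4 ∨ n = 5 := by omega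
  · simp only [hNdef, if_neg hcon] at h1
    omega
  · simp only [hNdef, if_neg hcon] at h1
    split_ifs at h1 <;> omega
  · simp only [hNdef, if_neg hcon] at h1
    split_ifs at h1 <;> omega

/-- **Statement in the complex plane.** -/
theorem plane_biex {U : Fin 6 → Set ℂ}
    (hU : ∀ i, Maximal (fun W : Set ℂ => IsOpen W ∧ ∀ x ∈ W, ∀ y ∈ W, dist x y ≠ 1) (U i))
    (hd : Dense (⋃ i, U i)) {D : Set ℂ}
    (top : ∀ T : ℂ → Set (Fin 6), Irr U T → Mn U T →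
      (∀ z ∈ D, ∀ v, dist z v = 1 → 4 ≤ (T v).ncard → ¬ Biex T z) → False)
    {O : ℕ → Set ℂ} (hO : ∀ n, IsOpen (O n)) (hX : ∀ n, 3 ≤ n → XU U n ⊆ O n) :
    ∃ z ∈ D, ∃ z' n n', dist z z' = 1 ∧ 4 ≤ n ∧ 4 ≤ n' ∧ BV U n z ∧ PV U n' z' ∧
      (∀ k, 3 ≤ k → k < n → z ∈ O k) ∧ ∀ k, 3 ≤ k → k < n' → z' ∈ O k := by
  obtain ⟨T, hT, hmin, hV⟩ := exists_T_open hU hd hO hX
  by_contra hcon
  exact top T hT hmin fun z hz v hzv hv hb => hcon ⟨z, hz, v, (T z).ncard, (T v).ncard, hzv,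
    four_of_Biex hT hb, hv, BV_of_Biex hT hmin hd hb, ⟨T v, rfl, Ex_of_T hT hmin hd hv⟩,
    hV z, hV v⟩

/-- the closed form -/
theorem plane_biex_closed {U : Fin 6 → Set ℂ} {D : Set ℂ} (hD : IsClosed D)
    (H : ∀ O : ℕ → Set ℂ, (∀ n, IsOpen (O n)) → (∀ n, 3 ≤ n → XU U n ⊆ O n) →
      ∃ z ∈ D, ∃ z' n n', dist z z' = 1 ∧ 4 ≤ n ∧ 4 ≤ n' ∧ BV U n z ∧ PV U n' z' ∧
        (∀ k, 3 ≤ k → k < n → z ∈ O k) ∧ ∀ k, 3 ≤ k → k < n' → z' ∈ O k) :
    ∃ z ∈ D, ∃ z' n, dist z z' = 1 ∧ 3 ≤ n ∧ z ∈ XU U n ∧ z' ∈ XU U 3 ∧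
      z ∈ closure {x | BV U (n + 1) x} := by
  by_contra hcon
  set K : Set ℂ := ⋃ n ∈ Finset.Icc 3 5, D ∩ (XU U n ∩ closure {x | BV U (n + 1) x}) with hK
  have hKc : IsClosed K := (Finset.finite_toSet (Finset.Icc 3 5)).isClosed_biUnion
    fun n _ => hD.inter ((isClosed_XU U n).inter isClosed_closure)
  obtain ⟨N₅, V, hN₅, hV, hKN, hXV, hfree⟩ := exists_open_free₂ hKc (isClosed_XU U 3)
    (fun z hz v hv hzv => by
      obtain ⟨n, hn, h1, h2, h3⟩ := mem_iUnion₂.1 hz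
      exact hcon ⟨z, h1, v, n, hzv, (Finset.mem_Icc.1 hn).1, h2, hv, h3⟩)
  set O : ℕ → Set ℂ := fun n => V ∩ (D ∩ (closure {x | BV U (n + 1) x} ∩ N₅ᶜ))ᶜ ∪
    (if n ≤ 5 then ∅ else univ) with hOdef
  have hOo : ∀ n, IsOpen (O n) := by
    intro n
    refine (hV.inter (hD.inter (isClosed_closure.inter
      hN₅.isClosed_compl)).isOpen_compl).union ?_
    split_ifs
    · exact isOpen_empty
    · exact isOpen_univ
  have hXO : ∀ n, 3 ≤ n → XU U n ⊆ O n := by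
    intro n hn x hx
    by_cases h5 : n ≤ 5
    · exact Or.inl ⟨hXV (XU_anti U hn hx), fun h1 => h1.2.2 (hKN (mem_iUnion₂.2
        ⟨n, Finset.mem_Icc.2 ⟨hn, h5⟩, h1.1, hx, h1.2.1⟩))⟩
    · refine Or.inr ?_
      rw [if_neg h5]
      exact mem_univ x
  obtain ⟨z, hz, z', n, n', hzz, h4, h4', hB, -, hzO, hzO'⟩ := H O hOo hXO
  have h6 : n ≤ 6 := by
    obtain ⟨P, -, -, hP, -⟩ := hB
    rw [← hP]
    exact (Set.ncard_le_card _).trans (by simp)
  obtain ⟨k, rfl⟩ : ∃ k, n = k + 1 := ⟨n - 1, by omega⟩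
  have h1 : z ∈ V ∩ (D ∩ (closure {x | BV U (k + 1) x} ∩ N₅ᶜ))ᶜ := by
    rcases hzO k (by omega) (by omega) with h | h
    · exact h
    · rw [if_pos (by omega)] at h
      exact h.elim
  have h2 : z' ∈ V := by
    rcases hzO' 3 le_rfl (by omega) with h | h
    · exact h.1
    · rw [if_pos (by norm_num)] at h
      exact h.elim
  refine hfree z ?_ z' h2 hzz
  by_contra hcon'
  exact h1.2 ⟨hz, subset_closure hB, hcon'⟩

/-! ### transfer -/

theorem hEx {U : Fin 6 → Set (EuclideanSpace ℝ (Fin 2))} {y : ℂ} {s : Set (Fin 6)}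
    (h : Ex (fun i => φ ⁻¹' U i) y s) : Ex U (φ y) s := by
  have hcl : ∀ S : Set (EuclideanSpace ℝ (Fin 2)), closure (φ ⁻¹' S) = φ ⁻¹' closure S :=
    fun S => (φ.toHomeomorph.preimage_closure S).symm
  have hdf : ∀ s : Set (Fin 6), ((⋃ j, φ ⁻¹' U j) \ ⋃ i ∈ s, φ ⁻¹' U i) =
      φ ⁻¹' ((⋃ j, U j) \ ⋃ i ∈ s, U i) := by
    intro s
    rw [preimage_sdiff, preimage_iUnion, preimage_iUnion₂]
  obtain ⟨h1, h2⟩ := h
  rw [hdf, hcl] at h1
  refine ⟨h1, fun s' hs' => ?_⟩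
  have h3 := h2 s' hs'
  rw [hdf, hcl] at h3
  exact h3

theorem hBV {U : Fin 6 → Set (EuclideanSpace ℝ (Fin 2))} {n : ℕ} {x : ℂ}
    (h : BV (fun i => φ ⁻¹' U i) n x) : BV U n (φ x) := by
  obtain ⟨P, A, B, h0, h1, h2, h3, h4, h5, h6, p, q, hp, hq, r, hr, h7, h8⟩ := h
  have hd : ∀ y p : ℂ, dist (φ y) (φ p) = dist y p := fun y p => φ.dist_map y p
  refine ⟨P, A, B, h0, h1, h2, h3, h4, h5, hEx h6, φ p, φ q, by rw [hd]; exact hp,
    by rw [hd]; exact hq, r, hr, fun y hy hyp => ?_, fun y hy hyq => ?_⟩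
  · rw [← φ.apply_symm_apply y, hd] at hy hyp
    have := hEx (h7 _ hy hyp)
    rwa [φ.apply_symm_apply] at this
  · rw [← φ.apply_symm_apply y, hd] at hy hyq
    have := hEx (h8 _ hy hyq)
    rwa [φ.apply_symm_apply] at this

theorem hPV {U : Fin 6 → Set (EuclideanSpace ℝ (Fin 2))} {n : ℕ} {x : ℂ}
    (h : PV (fun i => φ ⁻¹' U i) n x) : PV U n (φ x) := by
  obtain ⟨P, h1, h2⟩ := h
  exact ⟨P, h1, hEx h2⟩

/-- transfer of the two statements, for a disc or the whole plane `D` -/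
theorem transfer {U : Fin 6 → Set (EuclideanSpace ℝ (Fin 2))} (hd : Dense (⋃ i, U i))
    (hU : ∀ i, Maximal (fun W : Set (EuclideanSpace ℝ (Fin 2)) =>
      IsOpen W ∧ ∀ x ∈ W, ∀ y ∈ W, dist x y ≠ 1) (U i)) {D : Set (EuclideanSpace ℝ (Fin 2))}
    (hD : IsClosed D)
    (top : ∀ T : ℂ → Set (Fin 6), Irr (fun i => φ ⁻¹' U i) T → Mn (fun i => φ ⁻¹' U i) T →
      (∀ z, φ z ∈ D → ∀ v, dist z v = 1 → 4 ≤ (T v).ncard → ¬ Biex T z) → False) :
    (∀ O : ℕ → Set (EuclideanSpace ℝ (Fin 2)), (∀ n, IsOpen (O n)) →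
      (∀ n, 3 ≤ n → XU U n ⊆ O n) →
      ∃ z ∈ D, ∃ z' n n', dist z z' = 1 ∧ 4 ≤ n ∧ 4 ≤ n' ∧ BV U n z ∧ PV U n' z' ∧
        (∀ k, 3 ≤ k → k < n → z ∈ O k) ∧ ∀ k, 3 ≤ k → k < n' → z' ∈ O k) ∧
    ∃ z ∈ D, ∃ z' n, dist z z' = 1 ∧ 3 ≤ n ∧ z ∈ XU U n ∧ z' ∈ XU U 3 ∧
      z ∈ closure {x | BV U (n + 1) x} := by
  have hUc : ∀ i, Maximal (fun W : Set ℂ => IsOpen W ∧ ∀ x ∈ W, ∀ y ∈ W, dist x y ≠ 1)
      (φ ⁻¹' U i) := fun i => maximal_preimage (hU i) φ
  have hdc : Dense (⋃ i, φ ⁻¹' U i) := by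
    rw [← preimage_iUnion]
    exact hd.preimage φ.toHomeomorph.isOpenMap
  have key := fun (O : ℕ → Set ℂ) (hO : ∀ n, IsOpen (O n))
      (hX : ∀ n, 3 ≤ n → XU (fun i => φ ⁻¹' U i) n ⊆ O n) =>
    plane_biex (U := fun i => φ ⁻¹' U i) hUc hdc (D := φ ⁻¹' D) (fun T h hmin hw =>
      top T h hmin hw) hO hX
  have hcl : ∀ S : Set (EuclideanSpace ℝ (Fin 2)), closure (φ ⁻¹' S) = φ ⁻¹' closure S :=
    fun S => (φ.toHomeomorph.preimage_closure S).symm
  refine ⟨fun O hO hX => ?_, ?_⟩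
  · obtain ⟨z, hz, z', n, n', h1, h2, h3, h4, h5, h6, h7⟩ := key (fun n => φ ⁻¹' O n)
      (fun n => (hO n).preimage φ.continuous) fun n hn x hx => hX n hn (hXU n x hx)
    exact ⟨φ z, hz, φ z', n, n', by rw [φ.dist_map]; exact h1, h2, h3, hBV h4, hPV h5, h6, h7⟩
  · obtain ⟨z, hz, z', n, h1, h2, h3, h4, h5⟩ :=
      plane_biex_closed (hD.preimage φ.continuous) key
    refine ⟨φ z, hz, φ z', n, by rw [φ.dist_map]; exact h1, h2, hXU n z h3, hXU 3 z' h4, ?_⟩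
    have h6 : z ∈ closure (φ ⁻¹' {x | BV U (n + 1) x}) := closure_mono (fun x hx => hBV hx) h5
    rw [hcl] at h6
    exact h6

/-- **Statement in the plane, disc form.** -/
theorem disc_biex {ρ : ℝ} (hρ : 0 ≤ ρ) (hA : NoAltLoc ρ) (H6 : NoSixALoc) (HA : ActLoc)
    {U : Fin 6 → Set (EuclideanSpace ℝ (Fin 2))} (hd : Dense (⋃ i, U i))
    (hU : ∀ i, Maximal (fun W : Set (EuclideanSpace ℝ (Fin 2)) =>
      IsOpen W ∧ ∀ x ∈ W, ∀ y ∈ W, dist x y ≠ 1) (U i)) (o : EuclideanSpace ℝ (Fin 2)) :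
    (∀ O : ℕ → Set (EuclideanSpace ℝ (Fin 2)), (∀ n, IsOpen (O n)) →
      (∀ n, 3 ≤ n → XU U n ⊆ O n) →
      ∃ z ∈ closedBall o (38 + ρ), ∃ z' n n', dist z z' = 1 ∧ 4 ≤ n ∧ 4 ≤ n' ∧ BV U n z ∧
        PV U n' z' ∧ (∀ k, 3 ≤ k → k < n → z ∈ O k) ∧ ∀ k, 3 ≤ k → k < n' → z' ∈ O k) ∧
    ∃ z ∈ closedBall o (38 + ρ), ∃ z' n, dist z z' = 1 ∧ 3 ≤ n ∧ z ∈ XU U n ∧ z' ∈ XU U 3 ∧
      z ∈ closure {x | BV U (n + 1) x} := by
  refine transfer hd hU isClosed_closedBall fun T h hmin hw =>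
    biex_core hρ hA H6 HA h hmin (φ.symm o) fun z hz => hw z ?_
  rw [mem_closedBall, ← φ.apply_symm_apply o, φ.dist_map]
  exact hz

/-- no point `z` with `T z = {m}ᶜ` which is not biexact, if there are no biexact points with a unit
neighbour of at least four colours -/
def NoAltW : Prop :=
  ∀ (U : Fin 6 → Set ℂ) (T : ℂ → Set (Fin 6)), Irr U T → Mn U T →
    (∀ w v, dist w v = 1 → 4 ≤ (T v).ncard → Biex T w → False) →
    ∀ z m, T z = {m}ᶜ → ¬ Biex T z → False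

theorem NoAltW.of_loc {ρ : ℝ} (h : NoAltLoc ρ) : NoAltW :=
  fun U T hT hmin hw z m hz hb => h U T hT hmin z m hz hb fun w _ v h1 h2 h3 => hw w v h1 h2 h3

/-- **The core, without discs.** -/
theorem biex_core_all (hA : NoAltW) (H5 : NoFive) (H6 : NoSix)
    {U : Fin 6 → Set ℂ} {T : ℂ → Set (Fin 6)} (h : Irr U T) (hmin : Mn U T)
    (hU : ∀ z v, dist z v = 1 → 4 ≤ (T v).ncard → Biex T z → False) : False := by
  refine core6 H5 H6 h hmin fun z v hzv hv hcase => ?_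
  have hb : ¬ Biex T z := hU z v hzv hv
  rcases hcase with h5 | ⟨a, b, c', d, hD⟩
  · by_cases h6 : ∀ i, i ∈ T z
    · exact hb (biex_six h h6)
    · push Not at h6
      obtain ⟨m, hm⟩ := h6
      have h7 : T z = {m}ᶜ := by
        refine Set.eq_of_subset_of_ncard_le (fun i hi => ?_) ?_ (Set.toFinite _)
        · rintro rfl; exact hm hi
        · have h8 : ({m}ᶜ : Set (Fin 6)).ncard = 5 := by
            rw [Set.ncard_compl, Set.ncard_singleton, Nat.card_eq_fintype_card, Fintype.card_fin]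
          omega
      exact hA U T h hmin hU z m h7 hb
  · exact hb (biex_of_DPt hD)

/-- **Statement in the plane, without discs.** -/
theorem pair_biex (hA : NoAltW) (H5 : NoFive) (H6 : NoSix)
    {U : Fin 6 → Set (EuclideanSpace ℝ (Fin 2))} (hd : Dense (⋃ i, U i))
    (hU : ∀ i, Maximal (fun W : Set (EuclideanSpace ℝ (Fin 2)) =>
      IsOpen W ∧ ∀ x ∈ W, ∀ y ∈ W, dist x y ≠ 1) (U i)) :
    (∀ O : ℕ → Set (EuclideanSpace ℝ (Fin 2)), (∀ n, IsOpen (O n)) →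
      (∀ n, 3 ≤ n → XU U n ⊆ O n) →
      ∃ z z' n n', dist z z' = 1 ∧ 4 ≤ n ∧ 4 ≤ n' ∧ BV U n z ∧
        PV U n' z' ∧ (∀ k, 3 ≤ k → k < n → z ∈ O k) ∧ ∀ k, 3 ≤ k → k < n' → z' ∈ O k) ∧
    ∃ z z' n, dist z z' = 1 ∧ 3 ≤ n ∧ z ∈ XU U n ∧ z' ∈ XU U 3 ∧
      z ∈ closure {x | BV U (n + 1) x} := by
  obtain ⟨h1, z, -, h2⟩ := transfer hd hU isClosed_univ fun T h hmin hw =>
    biex_core_all hA H5 H6 h hmin fun z v h1 h2 h3 => hw z (mem_univ _) v h1 h2 h3
  refine ⟨fun O hO hX => ?_, z, h2⟩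
  obtain ⟨z, -, h3⟩ := h1 O hO hX
  exact ⟨z, h3⟩

end Vale.Agent.P032.H535
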