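import Vale.Agent.P032.H535.SwitchP

/-!
# P032: biexact points with disjoint arcs, statement in the plane

`BD U n x` : as `BV U n x`, with disjoint arcs.
`disc_biexD` : the statement in the plane.
-/

open Set Filter Topology Metric

noncomputable section

namespace Vale.Agent.P032.H535

open Vale.Agent.P032.Six Vale.Agent.P032.S5.H926 Vale.Agent.P032.S5.H843 Vale.Agent.P032.S5.H138
  Vale.Agent.P032.S5.H306 Vale.Agent.P032.R2.H306 Vale.Agent.P032.H89

/-- a biexact point with a minimal sufficient set `P` of `n` indices, disjoint arcs -/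
def BD {E : Type*} [PseudoMetricSpace E] (U : Fin 6 → Set E) (n : ℕ) (x : E) : Prop :=
  ∃ P A B : Set (Fin 6), P.ncard = n ∧ Ex U x P ∧ A ⊆ P ∧ B ⊆ P ∧ Disjoint A B ∧ 2 ≤ A.ncard ∧
    2 ≤ B.ncard ∧ ∃ p q, dist p x = 1 ∧ dist q x = 1 ∧ ∃ r > 0, 2 * r ≤ dist p q ∧
      (∀ y, dist y x = 1 → dist y p < r → Ex U y A) ∧
      ∀ y, dist y x = 1 → dist y q < r → Ex U y B

/-- an exact arc contains an arc with a constant minimal sufficient set -/
theorem arc_minD {U : Fin 6 → Set ℂ} {T : ℂ → Set (Fin 6)} (h : Irr U T) (hd : Dense (⋃ i, U i))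
    {z q : ℂ} (hq : Ext T z q) :
    ∃ A ⊆ T q, 2 ≤ A.ncard ∧ ∃ p, dist p z = 1 ∧ T p = T q ∧ ∃ r > 0,
      ∀ y, dist y z = 1 → dist y p < r → Ex U y A := by
  obtain ⟨hqz, hJ, hs⟩ := hq
  rw [eventually_nhdsWithin_iff, Metric.eventually_nhds_iff] at hJ
  obtain ⟨r, hr, hqr⟩ := hJ
  let S : Set ℕ := {n | ∃ y s, dist y z = 1 ∧ dist y q < r ∧ s ⊆ T q ∧ s.ncard = n ∧
    y ∉ closure ((⋃ j, U j) \ ⋃ i ∈ s, U i)}
  have hS : S.Nonempty :=
    ⟨_, q, T q, hqz, by rw [dist_self]; exact hr, Subset.rfl, rfl, Irr_suff h q⟩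
  obtain ⟨p, A, hpz, hpq, hA, hn, hpA⟩ := Nat.sInf_mem hS
  have hmin : ∀ y s, dist y z = 1 → dist y q < r → s ⊆ T q →
      y ∉ closure ((⋃ j, U j) \ ⋃ i ∈ s, U i) → A.ncard ≤ s.ncard := by
    intro y s h1 h2 h3 h4
    rw [hn]
    exact Nat.sInf_le ⟨y, s, h1, h2, h3, rfl, h4⟩
  refine ⟨A, hA, ?_, p, hpz, hqr hpq (mem_sphere.2 hpz), ?_⟩
  · by_contra hcon
    have h1 : A.ncard ≤ 1 := by omega
    have h2 := suf_of_notMem hd hpA
    rcases (Set.ncard_le_one_iff_eq (Set.toFinite A)).1 h1 with rfl | ⟨a, rfl⟩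
    · obtain ⟨w, i, hi, -⟩ := h2.exists
      exact hi
    · refine not_single h hpz (hs (hA (mem_singleton a))) (h2.mono fun w hw => ?_)
      obtain ⟨i, hi, hw⟩ := hw
      have hi' : i = a := hi
      subst hi'
      exact hw.elim (fun h => subset_closure h) fun h => h.2
  · obtain ⟨r₁, hr₁, h1⟩ := Metric.isOpen_iff.1 isClosed_closure.isOpen_compl p hpA
    refine ⟨min r₁ (r - dist p q), lt_min hr₁ (by linarith), fun y hyz hyp => ⟨?_, ?_⟩⟩
    · exact h1 (mem_ball.2 (hyp.trans_le (min_le_left _ _)))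
    · intro s' hs'
      by_contra hcon
      have h2 : dist y q < r := by
        have h3 := dist_triangle y p q
        have h4 := hyp.trans_le (min_le_right r₁ (r - dist p q))
        linarith
      have h3 := hmin y s' hyz h2 (hs'.subset.trans hA) hcon
      have h4 := Set.ncard_lt_ncard hs' (Set.toFinite A)
      omega

theorem BD_of_Biex {U : Fin 6 → Set ℂ} {T : ℂ → Set (Fin 6)} (h : Irr U T) (hmin : Mn U T)
    (hd : Dense (⋃ i, U i)) {z : ℂ} (hz : Biex T z) : BD U (T z).ncard z := by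
  have h4 := four_of_Biex h hz
  obtain ⟨p, q, hp, hq, hpq⟩ := hz
  obtain ⟨A, hA, hA2, p', hp', hTp, r, hr, hAr⟩ := arc_minD h hd hp
  obtain ⟨B, hB, hB2, q', hq', hTq, r', hr', hBr⟩ := arc_minD h hd hq
  have hne : p' ≠ q' := by
    intro he
    rw [he, hTq] at hTp
    rw [← hTp] at hpq
    obtain ⟨i, hi⟩ := h.ne q
    exact Set.disjoint_left.1 hpq hi hi
  have hdist : 0 < dist p' q' := dist_pos.2 hne
  refine ⟨T z, A, B, rfl, Ex_of_T h hmin hd h4, hA.trans hp.2.2, hB.trans hq.2.2,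
    hpq.mono hA hB, hA2, hB2, p', q', hp', hq', min (min r r') (dist p' q' / 2),
    lt_min (lt_min hr hr') (by linarith), ?_,
    fun y h1 h2 => hAr y h1 (h2.trans_le ((min_le_left _ _).trans (min_le_left _ _))),
    fun y h1 h2 => hBr y h1 (h2.trans_le ((min_le_left _ _).trans (min_le_right _ _)))⟩
  have := min_le_right (min r r') (dist p' q' / 2)
  linarith

theorem hBD {U : Fin 6 → Set (EuclideanSpace ℝ (Fin 2))} {n : ℕ} {x : ℂ}
    (h : BD (fun i => φ ⁻¹' U i) n x) : BD U n (φ x) := by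
  obtain ⟨P, A, B, h0, h6, h1, h2, h3, h4, h5, p, q, hp, hq, r, hr, h9, h7, h8⟩ := h
  have hd : ∀ y p : ℂ, dist (φ y) (φ p) = dist y p := fun y p => φ.dist_map y p
  refine ⟨P, A, B, h0, hEx h6, h1, h2, h3, h4, h5, φ p, φ q, by rw [hd]; exact hp,
    by rw [hd]; exact hq, r, hr, by rw [hd]; exact h9, fun y hy hyp => ?_, fun y hy hyq => ?_⟩
  · rw [← φ.apply_symm_apply y, hd] at hy hyp
    have := hEx (h7 _ hy hyp)
    rwa [φ.apply_symm_apply] at this
  · rw [← φ.apply_symm_apply y, hd] at hy hyq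
    have := hEx (h8 _ hy hyq)
    rwa [φ.apply_symm_apply] at this

/-- **Statement in the plane, disc form, disjoint arcs.** -/
theorem disc_biexD {ρ : ℝ} (hρ : 0 ≤ ρ) (hA : NoAltLoc ρ) (H6 : NoSixALoc) (HA : ActLoc)
    {U : Fin 6 → Set (EuclideanSpace ℝ (Fin 2))} (hd : Dense (⋃ i, U i))
    (hU : ∀ i, Maximal (fun W : Set (EuclideanSpace ℝ (Fin 2)) =>
      IsOpen W ∧ ∀ x ∈ W, ∀ y ∈ W, dist x y ≠ 1) (U i)) (o : EuclideanSpace ℝ (Fin 2)) :
    (∀ O : ℕ → Set (EuclideanSpace ℝ (Fin 2)), (∀ n, IsOpen (O n)) →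
      (∀ n, 3 ≤ n → XU U n ⊆ O n) →
      ∃ z ∈ closedBall o (38 + ρ), ∃ z' n n', dist z z' = 1 ∧ 4 ≤ n ∧ 4 ≤ n' ∧ BD U n z ∧
        PV U n' z' ∧ (∀ k, 3 ≤ k → k < n → z ∈ O k) ∧ ∀ k, 3 ≤ k → k < n' → z' ∈ O k) ∧
    ∃ z ∈ closedBall o (38 + ρ), ∃ z' n, dist z z' = 1 ∧ 3 ≤ n ∧ z ∈ XU U n ∧ z' ∈ XU U 3 ∧
      z ∈ closure {x | BD U (n + 1) x} := by
  have hdc : Dense (⋃ i, φ ⁻¹' U i) := by
    rw [← preimage_iUnion]
    exact hd.preimage φ.toHomeomorph.isOpenMap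
  refine gen_plane hd hU isClosed_closedBall (Bad := Biex) (BB := BD U) ?_ ?_ ?_ ?_
  · rintro n z ⟨P, -, -, hP, -⟩
    rw [← hP]
    exact (Set.ncard_le_card _).trans (by simp)
  · exact fun T hT z hz => four_of_Biex hT hz
  · exact fun T hT hmin z hz => hBD (BD_of_Biex hT hmin hdc hz)
  · intro T h hmin hw
    refine biex_core hρ hA H6 HA h hmin (φ.symm o) fun z hz => hw z ?_
    rw [mem_closedBall, ← φ.apply_symm_apply o, φ.dist_map]
    exact hz

end Vale.Agent.P032.H535
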