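import Vale.Agent.P032.H520.Seven
import Vale.Agent.P032.T.ChiFinal

/-!
# P032: the chromatic number of the plane from a statement on six open sets

If no six open sets without two points at distance one have a dense union, the Euclidean plane has a
proper colouring with `k` colours if and only if `7 ≤ k`.
-/

open Set Filter Topology Metric

noncomputable section

namespace Vale.Agent.P032.H535

/-- no six open sets without two points at distance one have a dense union -/
def NoSixOpen : Prop :=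
  ∀ V : Fin 6 → Set ℂ, (∀ i, IsOpen (V i)) → (∀ i, ∀ x ∈ V i, ∀ y ∈ V i, dist x y ≠ 1) →
    ¬ Dense (⋃ i, V i)

/-- **no proper colouring of the plane with six colours** -/
theorem no_six (H : NoSixOpen) (c : ℂ → Fin 6)
    (hc : ∀ x y : ℂ, dist x y = 1 → c x ≠ c y) : False := by
  obtain ⟨c', hm, hp⟩ := T.transfer c hc
  obtain ⟨D, hO, hu, -, hd⟩ := M.denseOpen 6 c' hm hp
  exact H D hO hu hd

/-- **The chromatic number of the plane is seven.** -/
theorem chi_seven (H : NoSixOpen) (k : ℕ) :
    (∃ c : EuclideanSpace ℝ (Fin 2) → Fin k,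
      ∀ x y : EuclideanSpace ℝ (Fin 2), dist x y = 1 → c x ≠ c y) ↔ 7 ≤ k := by
  refine ⟨fun ⟨c, hc⟩ => ?_, fun hk => H520.seven_le hk⟩
  by_contra hcon
  have hk : k ≤ 6 := by omega
  let φ : ℂ ≃ₗᵢ[ℝ] EuclideanSpace ℝ (Fin 2) := Complex.orthonormalBasisOneI.repr
  refine no_six H (fun x => Fin.castLE hk (c (φ x))) fun x y hxy h => ?_
  refine hc (φ x) (φ y) ?_ (Fin.castLE_injective hk h)
  rw [φ.dist_map]
  exact hxy

/-- the same with the graph of unit distances -/
theorem chromaticNumber_eq (H : NoSixOpen) (G : SimpleGraph (EuclideanSpace ℝ (Fin 2)))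
    (hG : ∀ x y, G.Adj x y ↔ dist x y = 1) : G.chromaticNumber = 7 := by
  refine le_antisymm ?_ ?_
  · obtain ⟨c, hc⟩ := (chi_seven H 7).2 le_rfl
    have hcol : G.Colorable 7 :=
      ⟨SimpleGraph.Coloring.mk (G := G) c fun {x y} h => hc x y ((hG x y).1 h)⟩
    exact hcol.chromaticNumber_le
  · by_contra hcon
    push Not at hcon
    have h6 : G.chromaticNumber ≤ 6 := by
      have h7 : G.chromaticNumber < ((7 : ℕ) : ℕ∞) := hcon
      have h8 : G.chromaticNumber ≠ ⊤ := ne_top_of_lt h7
      obtain ⟨n, hn⟩ := ENat.ne_top_iff_exists.1 h8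
      rw [← hn] at h7 ⊢
      have h9 : n < 7 := by exact_mod_cast h7
      exact_mod_cast (by omega : n ≤ 6)
    have h6' : G.chromaticNumber ≤ ((6 : ℕ) : ℕ∞) := h6
    obtain ⟨C⟩ := SimpleGraph.chromaticNumber_le_iff_colorable.1 h6'
    have h9 := (chi_seven H 6).1 ⟨fun x => C x, fun x y hxy => C.valid ((hG x y).2 hxy)⟩
    omega

end Vale.Agent.P032.H535
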