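import Vale.Agent.P032.H535.SwitchQ
import Vale.Agent.P032.H89.IsoPair

/-!
# P032: biexact points or isolated simple switches, statement in the plane

`disc_iso` : from `SysR m N Q 0 → False`, every closed disc of radius `41` contains a limit of
biexact points or of simple switches near which no other point has order `> 4`.
-/

open Set Filter Topology Metric

noncomputable section

namespace Vale.Agent.P032.H535

open Vale.Agent.P032.Six Vale.Agent.P032.S5.H926 Vale.Agent.P032.S5.H843 Vale.Agent.P032.S5.H138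
  Vale.Agent.P032.S5.H306 Vale.Agent.P032.R2.H306 Vale.Agent.P032.H89 Vale.Agent.P032.S5.H767

theorem card_compl (m : Fin 6) : ({m}ᶜ : Set (Fin 6)).ncard = 5 := by
  rw [Set.ncard_compl, Set.ncard_singleton, Nat.card_eq_fintype_card, Fintype.card_fin]

/-- an alternating point which is not biexact has a unit neighbour with four colours -/
theorem exists_nb {U : Fin 6 → Set ℂ} {T : ℂ → Set (Fin 6)} (h : Irr U T) {z : ℂ} {m : Fin 6}
    (hz : T z = {m}ᶜ) (hb : ¬ Biex T z) : ∃ v, dist z v = 1 ∧ 4 ≤ (T v).ncard := by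
  obtain ⟨t, Q, -, h4⟩ := alt_switch h hz hb
  rcases h4 0 with h5 | h5
  · exact ⟨_, by rw [dist_comm]; exact dist_pt z _, h5⟩
  · exact ⟨_, by rw [dist_comm]; exact dist_pt z _, h5⟩

/-- biexact points, or alternating points with an isolated switching direction near which all other
points have at most four colours -/
def Bad2 (T : ℂ → Set (Fin 6)) (z : ℂ) : Prop :=
  Biex T z ∨ ∃ m, T z = {m}ᶜ ∧ Alt T z m ∧ Iso T z m ∧ IsoX T z

/-- **The core, isolated form.** -/
theorem iso_core (F : ∀ (m : Fin 6) (N : Option (Fin 6) → Set (Fin 6)) (Q : Set State),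
      SysR m N Q 0 → False) (H6 : NoSixALoc) (HA : ActLoc)
    {U : Fin 6 → Set ℂ} {T : ℂ → Set (Fin 6)} (h : Irr U T) (hmin : Mn U T) (c : ℂ)
    (hU : ∀ z, dist z c ≤ 41 → ∀ v, dist z v = 1 → 4 ≤ (T v).ncard → ¬ Bad2 T z) : False := by
  have hU1 : ∀ z, dist z c ≤ 41 → ∀ v, dist z v = 1 → 4 ≤ (T v).ncard → ¬ Biex T z :=
    fun z hz v h1 h2 h3 => hU z hz v h1 h2 (Or.inl h3)
  refine disc_pair_core H6 HA h hmin c fun z hz v hzv hv hcase => ?_
  have hb : ¬ Biex T z := hU1 z (by linarith) v hzv hv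
  rcases hcase with h5 | ⟨a, b, c', d, hDp⟩
  swap
  · exact hb (biex_of_DPt hDp)
  by_cases h6 : ∀ i, i ∈ T z
  · exact hb (biex_six h h6)
  push Not at h6
  obtain ⟨m, hm⟩ := h6
  have h7 : T z = {m}ᶜ := by
    refine Set.eq_of_subset_of_ncard_le (fun i hi => ?_) ?_ (Set.toFinite _)
    · rintro rfl; exact hm hi
    · rw [card_compl]; exact h5
  obtain ⟨m', z', s, hp⟩ := exists_isoPair h hmin F (O := ball z (1 / 2)) isOpen_ball
    (fun y hy m₁ hm₁ _ q hq => hU1 q (by
      have h8 := dist_triangle q y c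
      have h9 := dist_triangle y z c
      rw [mem_ball] at hy
      linarith) y hq (by rw [hm₁, card_compl]; norm_num)) (mem_ball_self (by norm_num)) h7 hb
  have hz' : dist z' c < 38 + 1 / 2 := by
    have h8 := dist_triangle z' z c
    have h9 := mem_ball.1 hp.mem
    linarith
  have ha' : Alt T z' m' := (biex_or_alt h hp.pal).resolve_left hp.nb
  obtain ⟨v', hv', hv4⟩ := exists_nb h hp.pal hp.nb
  refine hU z' (by linarith) v' hv' hv4 (Or.inr ⟨m', hp.pal, ha', ?_, ?_⟩)
  · obtain ⟨ε, hε, hiso⟩ := hp.iso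
    exact ⟨s, hp.sw, ε, hε, hiso⟩
  · obtain ⟨ε, hε, hisoz⟩ := hp.isoz
    obtain ⟨r, hr, hball⟩ := Metric.eventually_nhds_iff.1 (h.nhd z')
    refine ⟨min (min ε r) (1 / 2), by positivity, fun w hne hd => ?_⟩
    have h1 : dist w z' < ε := hd.trans_le ((min_le_left _ _).trans (min_le_left _ _))
    have h2 : dist w z' < r := hd.trans_le ((min_le_left _ _).trans (min_le_right _ _))
    have h3 : dist w z' < 1 / 2 := hd.trans_le (min_le_right _ _)
    have hwc : dist w c ≤ 39 := by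
      have := dist_triangle w z' c
      linarith
    by_contra hcon
    have hsub : T w ⊆ T z' := hball h2
    have h5' : T w = {m'}ᶜ := by
      rw [← hp.pal]
      refine Set.eq_of_subset_of_ncard_le hsub ?_ (Set.toFinite _)
      rw [hp.pal, card_compl]
      omega
    by_cases hbw : Biex T w
    · refine no_five_clean h hmin (z := w) (by rw [h5', card_compl]) (fun y hy => ?_)
        fun w' hw' hDw' y hy => ?_
      · by_contra hcy
        exact hU1 w (by linarith) y (by rw [dist_comm]; exact hy) (by omega) hbw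
      · by_contra hcy
        obtain ⟨a, b, c', d, hDp⟩ := hDw'
        refine hU1 w' ?_ y (by rw [dist_comm]; exact hy) (by omega) (biex_of_DPt hDp)
        have := dist_triangle w' w c
        linarith
    · exact hne (hisoz w m' h1 h5' hbw)

/-- **Statement in the plane, isolated form.** -/
theorem disc_iso (F : ∀ (m : Fin 6) (N : Option (Fin 6) → Set (Fin 6)) (Q : Set State),
      SysR m N Q 0 → False) (H6 : NoSixALoc) (HA : ActLoc)
    {U : Fin 6 → Set (EuclideanSpace ℝ (Fin 2))} (hd : Dense (⋃ i, U i))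
    (hU : ∀ i, Maximal (fun W : Set (EuclideanSpace ℝ (Fin 2)) =>
      IsOpen W ∧ ∀ x ∈ W, ∀ y ∈ W, dist x y ≠ 1) (U i)) (o : EuclideanSpace ℝ (Fin 2)) :
    (∀ O : ℕ → Set (EuclideanSpace ℝ (Fin 2)), (∀ n, IsOpen (O n)) →
      (∀ n, 3 ≤ n → XU U n ⊆ O n) →
      ∃ z ∈ closedBall o 41, ∃ z' n n', dist z z' = 1 ∧ 4 ≤ n ∧ 4 ≤ n' ∧
        (BV U n z ∨ n = 5 ∧ SV2 U z) ∧
        PV U n' z' ∧ (∀ k, 3 ≤ k → k < n → z ∈ O k) ∧ ∀ k, 3 ≤ k → k < n' → z' ∈ O k) ∧
    ∃ z ∈ closedBall o 41, ∃ z' n, dist z z' = 1 ∧ 3 ≤ n ∧ z ∈ XU U n ∧ z' ∈ XU U 3 ∧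
      z ∈ closure {x | BV U (n + 1) x ∨ n + 1 = 5 ∧ SV2 U x} := by
  have hdc : Dense (⋃ i, φ ⁻¹' U i) := by
    rw [← preimage_iUnion]
    exact hd.preimage φ.toHomeomorph.isOpenMap
  refine gen_plane hd hU isClosed_closedBall (Bad := Bad2)
    (BB := fun n x => BV U n x ∨ n = 5 ∧ SV2 U x) ?_ ?_ ?_ ?_
  · rintro n z (⟨P, -, -, hP, -⟩ | ⟨rfl, -⟩)
    · rw [← hP]
      exact (Set.ncard_le_card _).trans (by simp)
    · norm_num
  · rintro T hT z (hz | ⟨m, hm, -⟩)
    · exact four_of_Biex hT hz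
    · rw [hm, card_compl]; norm_num
  · rintro T hT hmin z (hz | ⟨m, hm, ha, hi⟩)
    · exact Or.inl (hBV (BV_of_Biex hT hmin hdc hz))
    · exact Or.inr ⟨by rw [hm, card_compl], kv2 hd T hT hmin z m hm ha hi⟩
  · intro T h hmin hw
    refine iso_core F H6 HA h hmin (φ.symm o) fun z hz => hw z ?_
    rw [mem_closedBall, ← φ.apply_symm_apply o, φ.dist_map]
    exact hz

end Vale.Agent.P032.H535
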