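import Vale.Agent.P032.H535.SwitchP
import Vale.Agent.P032.H89.Perf
import Vale.Agent.P032.H89.SysR

/-!
# P032: an isolated switching direction from the finite system
-/

open Set Filter Topology Metric

noncomputable section

namespace Vale.Agent.P032.H535

open Vale.Agent.P032.Six Vale.Agent.P032.S5.H843 Vale.Agent.P032.H89 Vale.Agent.P032.S5.H767

variable {U : Fin 6 → Set ℂ} {T : ℂ → Set (Fin 6)} {z : ℂ}

theorem sg_nonempty (h : Irr U T) {m : Fin 6} (ha : Alt T z m) : (Sg T z m).Nonempty := by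
  set A : Set ℝ := closure {t | Gen T z t ∧ m ∈ T (pt z t)} with hA
  set B : Set ℝ := closure {t | Gen T z t ∧ m ∉ T (pt z t)} with hB
  have hcov : ∀ t : ℝ, t ∈ A ∪ B := by
    intro t
    rw [hA, hB, ← closure_union, _root_.mem_closure_iff]
    intro O hO htO
    obtain ⟨t', ht', hg⟩ := gen_exists h z hO ⟨t, htO⟩
    refine ⟨t', ht', ?_⟩
    by_cases hm : m ∈ T (pt z t')
    · exact Or.inl ⟨hg, hm⟩
    · exact Or.inr ⟨hg, hm⟩
  obtain ⟨t, -, hg⟩ := gen_exists h z isOpen_univ univ_nonempty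
  have hg1 : Gen T z (t + 1) := by simpa using hg.shift 1
  have hAne : A.Nonempty := by
    by_cases hm : m ∈ T (pt z t)
    · exact ⟨t, subset_closure ⟨hg, hm⟩⟩
    · refine ⟨t + 1, subset_closure ⟨hg1, ?_⟩⟩
      by_contra hm'
      exact hm ((ha t hg).2 hm')
  have hBne : B.Nonempty := by
    by_cases hm : m ∈ T (pt z t)
    · exact ⟨t + 1, subset_closure ⟨hg1, (ha t hg).1 hm⟩⟩
    · exact ⟨t, subset_closure ⟨hg, hm⟩⟩
  have hpre : IsPreconnected (univ : Set ℝ) := isPreconnected_univ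
  rw [isPreconnected_closed_iff] at hpre
  have := hpre A B isClosed_closure isClosed_closure (fun t _ => hcov t)
    (by rwa [univ_inter]) (by rwa [univ_inter])
  rwa [univ_inter] at this

theorem noIso_of {m : Fin 6} (hI : ¬ Iso T z m) : Vale.Agent.P032.S5.H827.NoIso (Sg T z m) := by
  intro s hs ε hε
  by_contra hcon
  push Not at hcon
  refine hI ⟨s, hs, ε, hε, fun s' hs' hd => ?_⟩
  by_contra hne
  exact absurd hd (not_lt.2 (hcon s' hs' hne))

theorem nb_of_world {m : Fin 6} (hz : T z = {m}ᶜ)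
    (hw : ∀ w, dist w z ≤ 1 → ∀ v, dist w v = 1 → 4 ≤ (T v).ncard → ¬ Biex T w) :
    ∀ q, dist q z = 1 → ¬ Biex T q := by
  intro q hq
  refine hw q hq.le z hq ?_
  rw [hz, Set.ncard_compl, Set.ncard_singleton, Nat.card_eq_fintype_card, Fintype.card_fin]
  norm_num

/-- **The perfect case**, from the finite system. -/
theorem noPerfLoc_of (F : ∀ m N Q, Sys m N Q → False) : NoPerfLoc 1 := by
  intro U T h hmin z m hz hb hw
  have ha := (biex_or_alt h hz).resolve_left hb
  by_contra hI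
  obtain ⟨N, Q, hQ⟩ := exists_sys h hmin hz hb (nb_of_world hz hw) (noIso_of hI)
    (sg_nonempty h ha)
  exact F m N Q hQ

theorem noPerfLoc_of' (F : ∀ m N Q, SysR m N Q 0 → False) : NoPerfLoc 1 :=
  noPerfLoc_of fun m N Q h => F m N Q (h.restrict 0)

end Vale.Agent.P032.H535
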