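import Vale.Agent.P032.H535.Wild
import Vale.Agent.P032.H535.Chi

/-!
# P032: the chromatic number of the plane from the open statements of the wild frame

`NoDW` and `NoXW` (or `NoDV` and `NoXV`) of `H535/Wild.lean` imply that the Euclidean plane has a
proper colouring with `k` colours if and only if `7 ≤ k`.
-/

open Set Filter Topology Metric

noncomputable section

namespace Vale.Agent.P032.H535

open Vale.Agent.P032.Six

/-- the frame is impossible -/
def NoFrame : Prop :=
  ∀ (U : Fin 6 → Set ℂ) (T : ℂ → Set (Fin 6)), Irr U T → Mn U T → False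

theorem NoFrame.of (hD : NoDW) (hX : NoXW) : NoFrame := fun _ _ h1 h2 => no_frame hD hX h1 h2

theorem NoFrame.of_pair (hD : NoDV) (hX : NoXV) : NoFrame := fun _ _ h1 h2 =>
  no_frame_pair hD hX h1 h2

theorem NoFrame.noSixOpen (H : NoFrame) : NoSixOpen := fun V hV h hd => not_dense_of H V hV h hd

/-- **The chromatic number of the plane is seven.** -/
theorem seven_of (H : NoFrame) (k : ℕ) :
    (∃ c : EuclideanSpace ℝ (Fin 2) → Fin k,
      ∀ x y : EuclideanSpace ℝ (Fin 2), dist x y = 1 → c x ≠ c y) ↔ 7 ≤ k :=
  chi_seven H.noSixOpen k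

end Vale.Agent.P032.H535
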