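import Vale.Agent.P032.H535.Biex
import Vale.Agent.P032.H89.Rules

/-!
# P032: biexact points or simple switches, statement in the plane

`Iso T z m` : the set of switching directions of `z` has an isolated point.
`SW T z` : `T z = {m}ᶜ` for some `m`, and there is a hexagon on `S(z)` such that `m` is in all
palettes before the even corners and after the odd corners, and in no generic palette on the other
sides.
`SV U x` : the statement in the plane.
`NoPerfLoc ρ` : the hypothesis.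
-/

open Set Filter Topology Metric

noncomputable section

namespace Vale.Agent.P032.H535

open Vale.Agent.P032.Six Vale.Agent.P032.S5.H926 Vale.Agent.P032.S5.H843 Vale.Agent.P032.S5.H138
  Vale.Agent.P032.S5.H306 Vale.Agent.P032.R2.H306 Vale.Agent.P032.H89 Vale.Agent.P032.S5.H767

section

variable {U : Fin 6 → Set ℂ} {T : ℂ → Set (Fin 6)} {z : ℂ}

/-! ### Generic times form an open set -/

theorem gen_of_six {τ : ℝ} (h4 : ∀ j : Fin 6, Lc T z (τ + (j.val : ℤ))) : Gen T z τ := by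
  intro k
  have hk : k = (k % 6) + 6 * (k / 6) := (Int.emod_add_mul_ediv k 6).symm
  have hk0 : 0 ≤ k % 6 := Int.emod_nonneg _ (by norm_num)
  have hk6 : k % 6 < 6 := Int.emod_lt_of_pos _ (by norm_num)
  have h5 := h4 ⟨(k % 6).toNat, by omega⟩
  have h6 : (((k % 6).toNat : ℤ) : ℝ) = ((k % 6 : ℤ) : ℝ) := by
    rw [Int.toNat_of_nonneg hk0]
  have h7 := lc_int (k / 6) h5
  have h8 : τ + (((k % 6).toNat : ℤ) : ℝ) + 6 * ((k / 6 : ℤ) : ℝ) = τ + k := by
    rw [h6]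
    conv_rhs => rw [hk]
    push_cast
    ring
  rw [← h8]
  exact h7

theorem Lc.ev {τ : ℝ} (h : Lc T z τ) : ∀ᶠ v in 𝓝 τ, Lc T z v := by
  have h1 : ∀ᶠ v in 𝓝 τ, ∀ᶠ w in 𝓝 v, T (pt z w) = T (pt z τ) := eventually_eventually_nhds.2 h
  filter_upwards [h1, h] with v hv hv'
  filter_upwards [hv] with w hw
  rw [hw, hv']

theorem gen_ev {τ : ℝ} (h : Gen T z τ) : ∀ᶠ v in 𝓝 τ, Gen T z v := by
  have h1 : ∀ᶠ v in 𝓝 τ, ∀ j : Fin 6, Lc T z (v + (j.val : ℤ)) := by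
    refine eventually_all.2 fun j => ?_
    have h2 : Continuous fun v : ℝ => v + ((j.val : ℤ) : ℝ) := by fun_prop
    exact (h2.tendsto τ).eventually (Lc.ev (h j.val))
  exact h1.mono fun v hv => gen_of_six hv

/-- times generic on both sides -/
theorem gen_two (h : Irr U T) (z : ℂ) (s : ℝ) :
    Dense {t : ℝ | Gen T z (s - t) ∧ Gen T z (s + t)} := by
  rw [dense_iff_inter_open]
  intro O hO hne
  have c1 : Continuous fun t : ℝ => s - t := by fun_prop
  have c2 : Continuous fun t : ℝ => s + t := by fun_prop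
  obtain ⟨t₁, ht₁, hg₁⟩ := gen_exists h z (hO.preimage c1) (by
    obtain ⟨t, ht⟩ := hne
    exact ⟨s - t, by show s - (s - t) ∈ O; rwa [sub_sub_cancel]⟩)
  have ht₁' : s - t₁ ∈ O := ht₁
  have hg : ∀ᶠ t in 𝓝 (s - t₁), Gen T z (s - t) := by
    have h1 := c1.tendsto (s - t₁)
    rw [sub_sub_cancel] at h1
    exact h1.eventually (gen_ev hg₁)
  obtain ⟨O', hO'g, hO', hmem⟩ := _root_.eventually_nhds_iff.1 hg
  have c3 : Continuous fun t : ℝ => t - s := by fun_prop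
  obtain ⟨t₂, ht₂, hg₂⟩ := gen_exists h z ((hO.inter hO').preimage c3) (by
    refine ⟨s - t₁ + s, ?_⟩
    show s - t₁ + s - s ∈ O ∩ O'
    rw [add_sub_cancel_right]
    exact ⟨ht₁', hmem⟩)
  have ht₂' : t₂ - s ∈ O ∩ O' := ht₂
  refine ⟨t₂ - s, ht₂'.1, hO'g _ ht₂'.2, ?_⟩
  rwa [add_sub_cancel]

/-! ### Simple switches -/

/-- an isolated switching direction -/
def Iso (T : ℂ → Set (Fin 6)) (z : ℂ) (m : Fin 6) : Prop :=
  ∃ s ∈ Sg T z m, ∃ ε > 0, ∀ s' ∈ Sg T z m, |s' - s| < ε → s' = s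

/-- a simple switch of the colour `m` at the time `s` -/
def SwAt (T : ℂ → Set (Fin 6)) (z : ℂ) (m : Fin 6) (s ε : ℝ) : Prop :=
  (∀ t, 0 < t → t < ε → ∀ k : ℤ, (Even k → m ∈ T (pt z (s - t + k))) ∧
    (Odd k → m ∈ T (pt z (s + t + k)))) ∧
  ∀ t, 0 < t → t < ε → Gen T z (s - t) → Gen T z (s + t) → ∀ k : ℤ,
    (Odd k → m ∉ T (pt z (s - t + k))) ∧ (Even k → m ∉ T (pt z (s + t + k)))

theorem SwAt.of_types (h : Irr U T) {m : Fin 6} (ha : Alt T z m) {s ε : ℝ}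
    (hL : ∀ t ∈ Ioo (s - ε) s, Gen T z t → m ∈ T (pt z t))
    (hR : ∀ t ∈ Ioo s (s + ε), Gen T z t → m ∉ T (pt z t)) : SwAt T z m s ε := by
  have hcl : ∀ (k : ℤ) (a b t : ℝ), a < t → t < b →
      (∀ v ∈ Ioo a b, Gen T z v → m ∈ T (pt z (v + k))) → m ∈ T (pt z (t + k)) := by
    intro k a b t hat htb hv
    have h1 : ∃ᶠ v in 𝓝 t, m ∈ T (pt z (v + k)) := by
      rw [Filter.frequently_iff]
      intro V hV
      obtain ⟨O, hOV, hO, htO⟩ := _root_.mem_nhds_iff.1 (inter_mem hV (Ioo_mem_nhds hat htb))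
      obtain ⟨v, hvO, hg⟩ := gen_exists h z hO ⟨t, htO⟩
      exact ⟨v, (hOV hvO).1, hv v (hOV hvO).2 hg⟩
    exact (h.closed m).mem_of_frequently_of_tendsto h1 (tendsto_pt z t k)
  refine ⟨fun t ht0 ht k => ⟨fun hk => ?_, fun hk => ?_⟩,
    fun t ht0 ht hg1 hg2 k => ⟨fun hk => ?_, fun hk => ?_⟩⟩
  · refine hcl k (s - ε) s (s - t) (by linarith) (by linarith) fun v hv hg => ?_
    exact (ha.int hg k).2 (iff_of_true (hL v hv hg) hk)
  · refine hcl k s (s + ε) (s + t) (by linarith) (by linarith) fun v hv hg => ?_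
    exact (ha.int hg k).2 (iff_of_false (hR v hv hg) (Int.not_even_iff_odd.2 hk))
  · intro hm
    exact Int.not_even_iff_odd.2 hk (((ha.int hg1 k).1 hm).1
      (hL _ ⟨by linarith, by linarith⟩ hg1))
  · intro hm
    exact hR _ ⟨by linarith, by linarith⟩ hg2 (((ha.int hg2 k).1 hm).2 hk)

/-- **An isolated switching direction is a simple switch.** -/
theorem swAt_of_iso (h : Irr U T) {m : Fin 6} (ha : Alt T z m) (hi : Iso T z m) :
    ∃ s ε, 0 < ε ∧ SwAt T z m s ε := by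
  obtain ⟨s, hs, ε, hε, hiso⟩ := hi
  set A : Set ℝ := closure {t | Gen T z t ∧ m ∈ T (pt z t)} with hA
  set B : Set ℝ := closure {t | Gen T z t ∧ m ∉ T (pt z t)} with hB
  have hcov : ∀ t : ℝ, t ∈ A ∪ B := by
    intro t
    rw [hA, hB, ← closure_union, _root_.mem_closure_iff]
    intro O hO htO
    obtain ⟨t', ht', hg⟩ := gen_exists h z hO ⟨t, htO⟩
    refine ⟨t', ht', ?_⟩
    by_cases hm : m ∈ T (pt z t')
    · exact Or.inl ⟨hg, hm⟩
    · exact Or.inr ⟨hg, hm⟩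
  have hside : ∀ a b : ℝ, (∀ t ∈ Ioo a b, t ∉ Sg T z m) →
      (∀ t ∈ Ioo a b, Gen T z t → m ∈ T (pt z t)) ∨
      (∀ t ∈ Ioo a b, Gen T z t → m ∉ T (pt z t)) := by
    intro a b hab
    by_contra hcon
    rw [not_or] at hcon
    obtain ⟨h1, h2⟩ := hcon
    push Not at h1 h2
    obtain ⟨t₁, ht₁, hg₁, hm₁⟩ := h1
    obtain ⟨t₂, ht₂, hg₂, hm₂⟩ := h2
    have hpre : IsPreconnected (Ioo a b) := isPreconnected_Ioo
    rw [isPreconnected_closed_iff] at hpre
    obtain ⟨t, ht, ht'⟩ := hpre A B isClosed_closure isClosed_closure (fun t _ => hcov t)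
      ⟨t₂, ht₂, subset_closure ⟨hg₂, hm₂⟩⟩ ⟨t₁, ht₁, subset_closure ⟨hg₁, hm₁⟩⟩
    exact hab t ht ht'
  have hns : ¬ Gen T z s := fun hg => hg.lc0.notMem_Sg hs
  have hLS : ∀ t ∈ Ioo (s - ε) s, t ∉ Sg T z m := fun t ht hS =>
    ht.2.ne (hiso t hS (by rw [abs_lt]; constructor <;> linarith [ht.1, ht.2]))
  have hRS : ∀ t ∈ Ioo s (s + ε), t ∉ Sg T z m := fun t ht hS =>
    ht.1.ne' (hiso t hS (by rw [abs_lt]; constructor <;> linarith [ht.1, ht.2]))
  have hnear : Ioo (s - ε) (s + ε) ∈ 𝓝 s := Ioo_mem_nhds (by linarith) (by linarith)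
  have hfin : ∃ᶠ t in 𝓝 s, Gen T z t ∧ m ∈ T (pt z t) := mem_closure_iff_frequently.1 hs.1
  have hfout : ∃ᶠ t in 𝓝 s, Gen T z t ∧ m ∉ T (pt z t) := mem_closure_iff_frequently.1 hs.2
  obtain ⟨t₁, ⟨hg₁, hm₁⟩, ht₁⟩ := (hfin.and_eventually hnear).exists
  obtain ⟨t₂, ⟨hg₂, hm₂⟩, ht₂⟩ := (hfout.and_eventually hnear).exists
  have hne₁ : t₁ ≠ s := by rintro rfl; exact hns hg₁
  have hne₂ : t₂ ≠ s := by rintro rfl; exact hns hg₂
  have hsplit : ∀ t ∈ Ioo (s - ε) (s + ε), t ≠ s → t ∈ Ioo (s - ε) s ∨ t ∈ Ioo s (s + ε) :=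
    fun t ht hne => (lt_or_gt_of_ne hne).imp (fun h => ⟨ht.1, h⟩) fun h => ⟨h, ht.2⟩
  rcases hside _ _ hLS with hL | hL <;> rcases hside _ _ hRS with hR | hR
  · exfalso
    rcases hsplit t₂ ht₂ hne₂ with h1 | h1
    · exact hm₂ (hL _ h1 hg₂)
    · exact hm₂ (hR _ h1 hg₂)
  · exact ⟨s, ε, hε, SwAt.of_types h ha hL hR⟩
  · refine ⟨s + 1, ε, hε, SwAt.of_types h ha (fun t ht hg => ?_) fun t ht hg => ?_⟩
    · have hg' : Gen T z (t - 1) := by
        have := hg.shift (-1)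
        rwa [Int.cast_neg, Int.cast_one, ← sub_eq_add_neg] at this
      have h1 := ha _ hg'
      rw [sub_add_cancel] at h1
      by_contra hm
      exact hL (t - 1) ⟨by linarith [ht.1], by linarith [ht.2]⟩ hg' (h1.2 hm)
    · have hg' : Gen T z (t - 1) := by
        have := hg.shift (-1)
        rwa [Int.cast_neg, Int.cast_one, ← sub_eq_add_neg] at this
      have h1 := ha _ hg'
      rw [sub_add_cancel] at h1
      exact h1.1 (hR (t - 1) ⟨by linarith [ht.1], by linarith [ht.2]⟩ hg')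
  · exfalso
    rcases hsplit t₁ ht₁ hne₁ with h1 | h1
    · exact hL _ h1 hg₁ hm₁
    · exact hR _ h1 hg₁ hm₁

end

end Vale.Agent.P032.H535
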