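import Vale.Agent.P032.H535.Switch

/-!
# P032: biexact points or simple switches, statement in the plane
-/

open Set Filter Topology Metric

noncomputable section

namespace Vale.Agent.P032.H535

open Vale.Agent.P032.Six Vale.Agent.P032.S5.H926 Vale.Agent.P032.S5.H843 Vale.Agent.P032.S5.H138
  Vale.Agent.P032.S5.H306 Vale.Agent.P032.R2.H306 Vale.Agent.P032.H89 Vale.Agent.P032.S5.H767

/-- the point of the unit circle about `x` in the direction `θ` -/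
def crc (x : EuclideanSpace ℝ (Fin 2)) (θ : ℝ) : EuclideanSpace ℝ (Fin 2) :=
  x + !₂[Real.cos θ, Real.sin θ]

/-- a simple switch: `x` has the minimal sufficient set `{m}ᶜ`, and there is a hexagon on the unit
circle about `x` such that all points of the arcs before the even corners and after the odd corners
are in `closure (U m)`, and near a dense set of points of the other arcs at the corners `U m` is not
needed -/
def SV (U : Fin 6 → Set (EuclideanSpace ℝ (Fin 2))) (x : EuclideanSpace ℝ (Fin 2)) : Prop :=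
  ∃ m : Fin 6, Ex U x {m}ᶜ ∧ ∃ θ ε : ℝ, 0 < ε ∧
    (∀ t, 0 < t → t < ε → ∀ k : ℤ,
      (Even k → crc x (θ - t + k * (Real.pi / 3)) ∈ closure (U m)) ∧
      (Odd k → crc x (θ + t + k * (Real.pi / 3)) ∈ closure (U m))) ∧
    ∃ G : Set ℝ, Dense G ∧ ∀ t ∈ G, 0 < t → t < ε → ∀ k : ℤ,
      (Odd k → crc x (θ - t + k * (Real.pi / 3)) ∉
        closure ((⋃ j, U j) \ ⋃ i ∈ ({m}ᶜ : Set (Fin 6)), U i)) ∧
      (Even k → crc x (θ + t + k * (Real.pi / 3)) ∉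
        closure ((⋃ j, U j) \ ⋃ i ∈ ({m}ᶜ : Set (Fin 6)), U i))

theorem φ_cis (θ : ℝ) : φ (cis θ) = !₂[Real.cos θ, Real.sin θ] := by
  have h1 : (Complex.exp ((θ : ℂ) * Complex.I)).re = Real.cos θ := Complex.exp_ofReal_mul_I_re θ
  have h2 : (Complex.exp ((θ : ℂ) * Complex.I)).im = Real.sin θ := Complex.exp_ofReal_mul_I_im θ
  unfold cis
  ext i
  fin_cases i
  · simp [φ, Complex.orthonormalBasisOneI_repr_apply, h1]
  · simp [φ, Complex.orthonormalBasisOneI_repr_apply, h2]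

theorem φ_pt (z : ℂ) (v : ℝ) : φ (pt z v) = crc (φ z) (v * (Real.pi / 3)) := by
  unfold pt crc
  rw [map_add, φ_cis]

section

variable {U : Fin 6 → Set (EuclideanSpace ℝ (Fin 2))} {T : ℂ → Set (Fin 6)} {z : ℂ}

theorem hclφ (S : Set (EuclideanSpace ℝ (Fin 2))) (y : ℂ) (h : y ∈ closure (φ ⁻¹' S)) :
    φ y ∈ closure S := by
  have hcl : closure (φ ⁻¹' S) = φ ⁻¹' closure S := (φ.toHomeomorph.preimage_closure S).symm
  rw [hcl] at h
  exact h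

theorem hncl (s : Set (Fin 6)) (y : ℂ)
    (h : y ∉ closure ((⋃ j, φ ⁻¹' U j) \ ⋃ i ∈ s, φ ⁻¹' U i)) :
    φ y ∉ closure ((⋃ j, U j) \ ⋃ i ∈ s, U i) := by
  have hdf : ((⋃ j, φ ⁻¹' U j) \ ⋃ i ∈ s, φ ⁻¹' U i) =
      φ ⁻¹' ((⋃ j, U j) \ ⋃ i ∈ s, U i) := by
    rw [preimage_sdiff, preimage_iUnion, preimage_iUnion₂]
  have hcl : ∀ S : Set (EuclideanSpace ℝ (Fin 2)), closure (φ ⁻¹' S) = φ ⁻¹' closure S :=
    fun S => (φ.toHomeomorph.preimage_closure S).symm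
  rw [hdf, hcl] at h
  exact h

theorem notMem_of_T (h : Irr (fun i => φ ⁻¹' U i) T) {m : Fin 6} {y : ℂ} (hy : m ∉ T y) :
    φ y ∉ closure ((⋃ j, U j) \ ⋃ i ∈ ({m}ᶜ : Set (Fin 6)), U i) := by
  refine hncl _ y fun hcon => Irr_suff h y (closure_mono ?_ hcon)
  refine sdiff_subset_sdiff_right (iUnion₂_subset fun i hi => ?_)
  exact subset_iUnion₂ (s := fun i (_ : i ∈ ({m}ᶜ : Set (Fin 6))) => φ ⁻¹' U i) i (by
    rintro rfl
    exact hy hi)

/-- **A simple switch in the plane.** -/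
theorem SV_of_SwAt (h : Irr (fun i => φ ⁻¹' U i) T) (hmin : Mn (fun i => φ ⁻¹' U i) T)
    (hd : Dense (⋃ i, φ ⁻¹' U i)) {m : Fin 6} (hz : T z = {m}ᶜ) {s ε : ℝ} (hε : 0 < ε)
    (hsw : SwAt T z m s ε) : SV U (φ z) := by
  have h5 : ({m}ᶜ : Set (Fin 6)).ncard = 5 := by
    rw [Set.ncard_compl, Set.ncard_singleton, Nat.card_eq_fintype_card, Fintype.card_fin]
  have hπ : 0 < Real.pi / 3 := by positivity
  have hπ' : Real.pi / 3 ≠ 0 := hπ.ne'
  have hex := hEx (Ex_of_T h hmin hd (z := z) (by rw [hz]; omega))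
  rw [hz] at hex
  have e1 : ∀ (t : ℝ) (k : ℤ), crc (φ z) (s * (Real.pi / 3) - t + k * (Real.pi / 3)) =
      φ (pt z (s - t / (Real.pi / 3) + k)) := by
    intro t k
    rw [φ_pt]
    congr 1
    field_simp
  have e2 : ∀ (t : ℝ) (k : ℤ), crc (φ z) (s * (Real.pi / 3) + t + k * (Real.pi / 3)) =
      φ (pt z (s + t / (Real.pi / 3) + k)) := by
    intro t k
    rw [φ_pt]
    congr 1
    field_simp
  obtain ⟨hs1, hs2⟩ := hsw
  refine ⟨m, hex, s * (Real.pi / 3), ε * (Real.pi / 3), by positivity, fun t ht0 ht k => ?_,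
    {t | Gen T z (s - t / (Real.pi / 3)) ∧ Gen T z (s + t / (Real.pi / 3))}, ?_,
    fun t ht ht0 ht1 k => ?_⟩
  · rw [e1, e2]
    obtain ⟨h1, h2⟩ := hs1 (t / (Real.pi / 3)) (by positivity) (by
      rw [div_lt_iff₀ hπ]; exact ht) k
    exact ⟨fun hk => hclφ _ _ (h.sub _ (h1 hk)), fun hk => hclφ _ _ (h.sub _ (h2 hk))⟩
  · have hden := gen_two h z s
    let e : ℝ ≃ₜ ℝ := (Homeomorph.mulRight₀ (Real.pi / 3) hπ')
    have h6 : {t : ℝ | Gen T z (s - t / (Real.pi / 3)) ∧ Gen T z (s + t / (Real.pi / 3))} =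
        e.symm ⁻¹' {t : ℝ | Gen T z (s - t) ∧ Gen T z (s + t)} := by
      ext t
      simp only [mem_ofPred_eq, mem_preimage]
      rfl
    rw [h6]
    exact hden.preimage e.symm.isOpenMap
  · rw [e1, e2]
    obtain ⟨h1, h2⟩ := hs2 (t / (Real.pi / 3)) (by positivity) (by
      rw [div_lt_iff₀ hπ]; exact ht1) ht.1 ht.2 k
    exact ⟨fun hk => notMem_of_T h (h1 hk), fun hk => notMem_of_T h (h2 hk)⟩

end

/-! ### Frames for a general kind of points -/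

/-- the closed form, general kind of points -/
theorem gen_closed {U : Fin 6 → Set ℂ} {D : Set ℂ} (hD : IsClosed D) {BB : ℕ → ℂ → Prop}
    (h6 : ∀ n z, BB n z → n ≤ 6)
    (H : ∀ O : ℕ → Set ℂ, (∀ n, IsOpen (O n)) → (∀ n, 3 ≤ n → XU U n ⊆ O n) →
      ∃ z ∈ D, ∃ z' n n', dist z z' = 1 ∧ 4 ≤ n ∧ 4 ≤ n' ∧ BB n z ∧ PV U n' z' ∧
        (∀ k, 3 ≤ k → k < n → z ∈ O k) ∧ ∀ k, 3 ≤ k → k < n' → z' ∈ O k) :
    ∃ z ∈ D, ∃ z' n, dist z z' = 1 ∧ 3 ≤ n ∧ z ∈ XU U n ∧ z' ∈ XU U 3 ∧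
      z ∈ closure {x | BB (n + 1) x} := by
  by_contra hcon
  set K : Set ℂ := ⋃ n ∈ Finset.Icc 3 5, D ∩ (XU U n ∩ closure {x | BB (n + 1) x}) with hK
  have hKc : IsClosed K := (Finset.finite_toSet (Finset.Icc 3 5)).isClosed_biUnion
    fun n _ => hD.inter ((isClosed_XU U n).inter isClosed_closure)
  obtain ⟨N₅, V, hN₅, hV, hKN, hXV, hfree⟩ := exists_open_free₂ hKc (isClosed_XU U 3)
    (fun z hz v hv hzv => by
      obtain ⟨n, hn, h1, h2, h3⟩ := mem_iUnion₂.1 hz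
      exact hcon ⟨z, h1, v, n, hzv, (Finset.mem_Icc.1 hn).1, h2, hv, h3⟩)
  set O : ℕ → Set ℂ := fun n => V ∩ (D ∩ (closure {x | BB (n + 1) x} ∩ N₅ᶜ))ᶜ ∪
    (if n ≤ 5 then ∅ else univ) with hOdef
  have hOo : ∀ n, IsOpen (O n) := by
    intro n
    refine (hV.inter (hD.inter (isClosed_closure.inter
      hN₅.isClosed_compl)).isOpen_compl).union ?_
    split_ifs
    · exact isOpen_empty
    · exact isOpen_univ
  have hXO : ∀ n, 3 ≤ n → XU U n ⊆ O n := by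
    intro n hn x hx
    by_cases h5 : n ≤ 5
    · exact Or.inl ⟨hXV (XU_anti U hn hx), fun h1 => h1.2.2 (hKN (mem_iUnion₂.2
        ⟨n, Finset.mem_Icc.2 ⟨hn, h5⟩, h1.1, hx, h1.2.1⟩))⟩
    · refine Or.inr ?_
      rw [if_neg h5]
      exact mem_univ x
  obtain ⟨z, hz, z', n, n', hzz, h4, h4', hB, -, hzO, hzO'⟩ := H O hOo hXO
  have h6' : n ≤ 6 := h6 n z hB
  obtain ⟨k, rfl⟩ : ∃ k, n = k + 1 := ⟨n - 1, by omega⟩
  have h1 : z ∈ V ∩ (D ∩ (closure {x | BB (k + 1) x} ∩ N₅ᶜ))ᶜ := by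
    rcases hzO k (by omega) (by omega) with h | h
    · exact h
    · rw [if_pos (by omega)] at h
      exact h.elim
  have h2 : z' ∈ V := by
    rcases hzO' 3 le_rfl (by omega) with h | h
    · exact h.1
    · rw [if_pos (by norm_num)] at h
      exact h.elim
  refine hfree z ?_ z' h2 hzz
  by_contra hcon'
  exact h1.2 ⟨hz, subset_closure hB, hcon'⟩

/-- **General statement in the plane**: `Bad` is a kind of points of the frame, `BB` the
corresponding kind of points of the plane. -/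
theorem gen_plane {U : Fin 6 → Set (EuclideanSpace ℝ (Fin 2))} (hd : Dense (⋃ i, U i))
    (hU : ∀ i, Maximal (fun W : Set (EuclideanSpace ℝ (Fin 2)) =>
      IsOpen W ∧ ∀ x ∈ W, ∀ y ∈ W, dist x y ≠ 1) (U i)) {D : Set (EuclideanSpace ℝ (Fin 2))}
    (hD : IsClosed D) {Bad : (ℂ → Set (Fin 6)) → ℂ → Prop}
    {BB : ℕ → EuclideanSpace ℝ (Fin 2) → Prop} (h6 : ∀ n z, BB n z → n ≤ 6)
    (h4 : ∀ T : ℂ → Set (Fin 6), Irr (fun i => φ ⁻¹' U i) T → ∀ z, Bad T z → 4 ≤ (T z).ncard)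
    (hB : ∀ T : ℂ → Set (Fin 6), Irr (fun i => φ ⁻¹' U i) T → Mn (fun i => φ ⁻¹' U i) T →
      ∀ z, Bad T z → BB (T z).ncard (φ z))
    (top : ∀ T : ℂ → Set (Fin 6), Irr (fun i => φ ⁻¹' U i) T → Mn (fun i => φ ⁻¹' U i) T →
      (∀ z, φ z ∈ D → ∀ v, dist z v = 1 → 4 ≤ (T v).ncard → ¬ Bad T z) → False) :
    (∀ O : ℕ → Set (EuclideanSpace ℝ (Fin 2)), (∀ n, IsOpen (O n)) →
      (∀ n, 3 ≤ n → XU U n ⊆ O n) →
      ∃ z ∈ D, ∃ z' n n', dist z z' = 1 ∧ 4 ≤ n ∧ 4 ≤ n' ∧ BB n z ∧ PV U n' z' ∧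
        (∀ k, 3 ≤ k → k < n → z ∈ O k) ∧ ∀ k, 3 ≤ k → k < n' → z' ∈ O k) ∧
    ∃ z ∈ D, ∃ z' n, dist z z' = 1 ∧ 3 ≤ n ∧ z ∈ XU U n ∧ z' ∈ XU U 3 ∧
      z ∈ closure {x | BB (n + 1) x} := by
  have hUc : ∀ i, Maximal (fun W : Set ℂ => IsOpen W ∧ ∀ x ∈ W, ∀ y ∈ W, dist x y ≠ 1)
      (φ ⁻¹' U i) := fun i => maximal_preimage (hU i) φ
  have hdc : Dense (⋃ i, φ ⁻¹' U i) := by
    rw [← preimage_iUnion]
    exact hd.preimage φ.toHomeomorph.isOpenMap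
  have key : ∀ O : ℕ → Set ℂ, (∀ n, IsOpen (O n)) →
      (∀ n, 3 ≤ n → XU (fun i => φ ⁻¹' U i) n ⊆ O n) →
      ∃ z ∈ φ ⁻¹' D, ∃ z' n n', dist z z' = 1 ∧ 4 ≤ n ∧ 4 ≤ n' ∧ BB n (φ z) ∧
        PV (fun i => φ ⁻¹' U i) n' z' ∧
        (∀ k, 3 ≤ k → k < n → z ∈ O k) ∧ ∀ k, 3 ≤ k → k < n' → z' ∈ O k := by
    intro O hO hX
    obtain ⟨T, hT, hmin, hV⟩ := exists_T_open hUc hdc hO hX
    by_contra hcon
    exact top T hT hmin fun z hz v hzv hv hb => hcon ⟨z, hz, v, (T z).ncard, (T v).ncard, hzv,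
      h4 T hT z hb, hv, hB T hT hmin z hb, ⟨T v, rfl, Ex_of_T hT hmin hdc hv⟩, hV z, hV v⟩
  refine ⟨fun O hO hX => ?_, ?_⟩
  · obtain ⟨z, hz, z', n, n', h1, h2, h3, h4, h5, h6, h7⟩ := key (fun n => φ ⁻¹' O n)
      (fun n => (hO n).preimage φ.continuous) fun n hn x hx => hX n hn (hXU n x hx)
    exact ⟨φ z, hz, φ z', n, n', by rw [φ.dist_map]; exact h1, h2, h3, h4, hPV h5, h6, h7⟩
  · obtain ⟨z, hz, z', n, h1, h2, h3, h4, h5⟩ := gen_closed (U := fun i => φ ⁻¹' U i)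
      (hD.preimage φ.continuous) (BB := fun n z => BB n (φ z)) (fun n z h => h6 n (φ z) h) key
    refine ⟨φ z, hz, φ z', n, by rw [φ.dist_map]; exact h1, h2, hXU n z h3, hXU 3 z' h4, ?_⟩
    exact hclφ _ _ h5

/-! ### Biexact points or simple switches -/

/-- points of the frame which are biexact or have an isolated switching direction -/
def BSw (T : ℂ → Set (Fin 6)) (z : ℂ) : Prop :=
  Biex T z ∨ ∃ m, T z = {m}ᶜ ∧ Alt T z m ∧ Iso T z m

/-- the kind of points in the plane -/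
def BSV (U : Fin 6 → Set (EuclideanSpace ℝ (Fin 2))) (n : ℕ) (x : EuclideanSpace ℝ (Fin 2)) :
    Prop :=
  BV U n x ∨ (n = 5 ∧ SV U x)

/-- no point `z` with `T z = {m}ᶜ` which is not biexact and has no isolated switching direction, if
within distance `ρ` of `z` there are no biexact points with a unit neighbour of at least four
colours -/
def NoPerfLoc (ρ : ℝ) : Prop :=
  ∀ (U : Fin 6 → Set ℂ) (T : ℂ → Set (Fin 6)), Irr U T → Mn U T → ∀ z m, T z = {m}ᶜ →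
    ¬ Biex T z → (∀ w, dist w z ≤ ρ → ∀ v, dist w v = 1 → 4 ≤ (T v).ncard → ¬ Biex T w) →
    Iso T z m

/-- **Statement in the plane, disc form.** -/
theorem disc_switch {ρ : ℝ} (hρ : 0 ≤ ρ) (hA : NoPerfLoc ρ) (H6 : NoSixALoc) (HA : ActLoc)
    {U : Fin 6 → Set (EuclideanSpace ℝ (Fin 2))} (hd : Dense (⋃ i, U i))
    (hU : ∀ i, Maximal (fun W : Set (EuclideanSpace ℝ (Fin 2)) =>
      IsOpen W ∧ ∀ x ∈ W, ∀ y ∈ W, dist x y ≠ 1) (U i)) (o : EuclideanSpace ℝ (Fin 2)) :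
    (∀ O : ℕ → Set (EuclideanSpace ℝ (Fin 2)), (∀ n, IsOpen (O n)) →
      (∀ n, 3 ≤ n → XU U n ⊆ O n) →
      ∃ z ∈ closedBall o (38 + ρ), ∃ z' n n', dist z z' = 1 ∧ 4 ≤ n ∧ 4 ≤ n' ∧ BSV U n z ∧
        PV U n' z' ∧ (∀ k, 3 ≤ k → k < n → z ∈ O k) ∧ ∀ k, 3 ≤ k → k < n' → z' ∈ O k) ∧
    ∃ z ∈ closedBall o (38 + ρ), ∃ z' n, dist z z' = 1 ∧ 3 ≤ n ∧ z ∈ XU U n ∧ z' ∈ XU U 3 ∧
      z ∈ closure {x | BSV U (n + 1) x} := by
  have hdc : Dense (⋃ i, φ ⁻¹' U i) := by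
    rw [← preimage_iUnion]
    exact hd.preimage φ.toHomeomorph.isOpenMap
  have c5 : ∀ m : Fin 6, ({m}ᶜ : Set (Fin 6)).ncard = 5 := by
    intro m
    rw [Set.ncard_compl, Set.ncard_singleton, Nat.card_eq_fintype_card, Fintype.card_fin]
  refine gen_plane hd hU isClosed_closedBall (Bad := BSw) (BB := BSV U) ?_ ?_ ?_ ?_
  · rintro n z (⟨P, -, -, hP, -⟩ | ⟨rfl, -⟩)
    · rw [← hP]
      exact (Set.ncard_le_card _).trans (by simp)
    · norm_num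
  · rintro T hT z (hz | ⟨m, hm, -⟩)
    · exact four_of_Biex hT hz
    · rw [hm, c5]; norm_num
  · rintro T hT hmin z (hz | ⟨m, hm, ha, hi⟩)
    · exact Or.inl (hBV (BV_of_Biex hT hmin hdc hz))
    · obtain ⟨s, ε, hε, hsw⟩ := swAt_of_iso hT ha hi
      exact Or.inr ⟨by rw [hm, c5], SV_of_SwAt hT hmin hdc hm hε hsw⟩
  · intro T h hmin hw
    have hU' : ∀ z, dist z (φ.symm o) ≤ 38 + ρ → ∀ v, dist z v = 1 → 4 ≤ (T v).ncard →
        ¬ BSw T z := by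
      intro z hz
      refine hw z ?_
      rw [mem_closedBall, ← φ.apply_symm_apply o, φ.dist_map]
      exact hz
    refine disc_pair_core H6 HA h hmin (φ.symm o) fun z hz v hzv hv hcase => ?_
    have hb' : ¬ BSw T z := hU' z (by linarith) v hzv hv
    have hb : ¬ Biex T z := fun h => hb' (Or.inl h)
    rcases hcase with h5 | ⟨a, b, c', d, hDp⟩
    · by_cases h6 : ∀ i, i ∈ T z
      · exact hb (biex_six h h6)
      · push Not at h6
        obtain ⟨m, hm⟩ := h6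
        have h7 : T z = {m}ᶜ := by
          refine Set.eq_of_subset_of_ncard_le (fun i hi => ?_) ?_ (Set.toFinite _)
          · rintro rfl; exact hm hi
          · rw [c5]; exact h5
        refine hb' (Or.inr ⟨m, h7, (biex_or_alt h h7).resolve_left hb, ?_⟩)
        refine hA _ T h hmin z m h7 hb fun w hw' v' hwv hv' hbw => hU' w ?_ v' hwv hv' (Or.inl hbw)
        have := dist_triangle w z (φ.symm o)
        linarith
    · exact hb (biex_of_DPt hDp)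

end Vale.Agent.P032.H535
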