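import Vale.Agent.P032.H535.PerfG

/-!
# P032: biexact points or points of five colours of a given kind, statement in the plane

`disc_kind` : the statement in the plane for a general kind of points of five colours.
`SV2 U x` : a simple switch near which no other point has order `> 4`.
-/

open Set Filter Topology Metric

noncomputable section

namespace Vale.Agent.P032.H535

open Vale.Agent.P032.Six Vale.Agent.P032.S5.H926 Vale.Agent.P032.S5.H843 Vale.Agent.P032.S5.H138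
  Vale.Agent.P032.S5.H306 Vale.Agent.P032.R2.H306 Vale.Agent.P032.H89 Vale.Agent.P032.S5.H767

/-- every point `z` with `T z = {m}ᶜ` which is not biexact is of the kind `K`, if within distance
`ρ` of `z` there are no biexact points with a unit neighbour of at least four colours -/
def KindLoc (K : (ℂ → Set (Fin 6)) → ℂ → Fin 6 → Prop) (ρ : ℝ) : Prop :=
  ∀ (U : Fin 6 → Set ℂ) (T : ℂ → Set (Fin 6)), Irr U T → Mn U T → ∀ z m, T z = {m}ᶜ →
    ¬ Biex T z → (∀ w, dist w z ≤ ρ → ∀ v, dist w v = 1 → 4 ≤ (T v).ncard → ¬ Biex T w) →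
    K T z m

/-- **Statement in the plane, disc form, general kind.** -/
theorem disc_kind {ρ : ℝ} (hρ : 0 ≤ ρ) {K : (ℂ → Set (Fin 6)) → ℂ → Fin 6 → Prop}
    (hA : KindLoc K ρ) (H6 : NoSixALoc) (HA : ActLoc)
    {U : Fin 6 → Set (EuclideanSpace ℝ (Fin 2))} (hd : Dense (⋃ i, U i))
    (hU : ∀ i, Maximal (fun W : Set (EuclideanSpace ℝ (Fin 2)) =>
      IsOpen W ∧ ∀ x ∈ W, ∀ y ∈ W, dist x y ≠ 1) (U i))
    {KV : EuclideanSpace ℝ (Fin 2) → Prop}
    (hK : ∀ T : ℂ → Set (Fin 6), Irr (fun i => φ ⁻¹' U i) T → Mn (fun i => φ ⁻¹' U i) T →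
      ∀ z m, T z = {m}ᶜ → Alt T z m → K T z m → KV (φ z))
    (o : EuclideanSpace ℝ (Fin 2)) :
    (∀ O : ℕ → Set (EuclideanSpace ℝ (Fin 2)), (∀ n, IsOpen (O n)) →
      (∀ n, 3 ≤ n → XU U n ⊆ O n) →
      ∃ z ∈ closedBall o (38 + ρ), ∃ z' n n', dist z z' = 1 ∧ 4 ≤ n ∧ 4 ≤ n' ∧
        (BV U n z ∨ n = 5 ∧ KV z) ∧
        PV U n' z' ∧ (∀ k, 3 ≤ k → k < n → z ∈ O k) ∧ ∀ k, 3 ≤ k → k < n' → z' ∈ O k) ∧
    ∃ z ∈ closedBall o (38 + ρ), ∃ z' n, dist z z' = 1 ∧ 3 ≤ n ∧ z ∈ XU U n ∧ z' ∈ XU U 3 ∧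
      z ∈ closure {x | BV U (n + 1) x ∨ n + 1 = 5 ∧ KV x} := by
  have hdc : Dense (⋃ i, φ ⁻¹' U i) := by
    rw [← preimage_iUnion]
    exact hd.preimage φ.toHomeomorph.isOpenMap
  have c5 : ∀ m : Fin 6, ({m}ᶜ : Set (Fin 6)).ncard = 5 := by
    intro m
    rw [Set.ncard_compl, Set.ncard_singleton, Nat.card_eq_fintype_card, Fintype.card_fin]
  refine gen_plane hd hU isClosed_closedBall
    (Bad := fun T z => Biex T z ∨ ∃ m, T z = {m}ᶜ ∧ Alt T z m ∧ K T z m)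
    (BB := fun n x => BV U n x ∨ n = 5 ∧ KV x) ?_ ?_ ?_ ?_
  · rintro n z (⟨P, -, -, hP, -⟩ | ⟨rfl, -⟩)
    · rw [← hP]
      exact (Set.ncard_le_card _).trans (by simp)
    · norm_num
  · rintro T hT z (hz | ⟨m, hm, -⟩)
    · exact four_of_Biex hT hz
    · rw [hm, c5]; norm_num
  · rintro T hT hmin z (hz | ⟨m, hm, ha, hi⟩)
    · exact Or.inl (hBV (BV_of_Biex hT hmin hdc hz))
    · exact Or.inr ⟨by rw [hm, c5], hK T hT hmin z m hm ha hi⟩
  · intro T h hmin hw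
    have hU' : ∀ z, dist z (φ.symm o) ≤ 38 + ρ → ∀ v, dist z v = 1 → 4 ≤ (T v).ncard →
        ¬ (Biex T z ∨ ∃ m, T z = {m}ᶜ ∧ Alt T z m ∧ K T z m) := by
      intro z hz
      refine hw z ?_
      rw [mem_closedBall, ← φ.apply_symm_apply o, φ.dist_map]
      exact hz
    refine disc_pair_core H6 HA h hmin (φ.symm o) fun z hz v hzv hv hcase => ?_
    have hb' := hU' z (by linarith) v hzv hv
    have hb : ¬ Biex T z := fun h => hb' (Or.inl h)
    rcases hcase with h5 | ⟨a, b, c', d, hDp⟩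
    · by_cases h6 : ∀ i, i ∈ T z
      · exact hb (biex_six h h6)
      · push Not at h6
        obtain ⟨m, hm⟩ := h6
        have h7 : T z = {m}ᶜ := by
          refine Set.eq_of_subset_of_ncard_le (fun i hi => ?_) ?_ (Set.toFinite _)
          · rintro rfl; exact hm hi
          · rw [c5]; exact h5
        refine hb' (Or.inr ⟨m, h7, (biex_or_alt h h7).resolve_left hb, ?_⟩)
        refine hA _ T h hmin z m h7 hb fun w hw' v' hwv hv' hbw => hU' w ?_ v' hwv hv' (Or.inl hbw)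
        have := dist_triangle w z (φ.symm o)
        linarith
    · exact hb (biex_of_DPt hDp)

/-- near `z` all other points have at most four colours -/
def IsoX (T : ℂ → Set (Fin 6)) (z : ℂ) : Prop :=
  ∃ r > 0, ∀ w, w ≠ z → dist w z < r → (T w).ncard ≤ 4

/-- a simple switch near which no other point has order `> 4` -/
def SV2 (U : Fin 6 → Set (EuclideanSpace ℝ (Fin 2))) (x : EuclideanSpace ℝ (Fin 2)) : Prop :=
  SV U x ∧ ∃ r > 0, ∀ w, w ≠ x → dist w x < r → w ∉ XU U 4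

theorem isoX_plane {U : Fin 6 → Set (EuclideanSpace ℝ (Fin 2))} {T : ℂ → Set (Fin 6)} {z : ℂ}
    (h : Irr (fun i => φ ⁻¹' U i) T) (hi : IsoX T z) :
    ∃ r > 0, ∀ w, w ≠ φ z → dist w (φ z) < r → w ∉ XU U 4 := by
  obtain ⟨r, hr, hw⟩ := hi
  refine ⟨r, hr, fun w hne hd hX => ?_⟩
  have h1 : dist (φ.symm w) z < r := by
    rw [← φ.dist_map, φ.apply_symm_apply]
    exact hd
  have h2 : φ.symm w ≠ z := by
    rintro rfl
    exact hne (φ.apply_symm_apply w).symm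
  have h3 := hncl (U := U) _ _ (Irr_suff h (φ.symm w))
  rw [φ.apply_symm_apply] at h3
  exact h3 (hX _ (hw _ h2 h1))

/-- both properties -/
def K2 (T : ℂ → Set (Fin 6)) (z : ℂ) (m : Fin 6) : Prop := Iso T z m ∧ IsoX T z

theorem kv2 {U : Fin 6 → Set (EuclideanSpace ℝ (Fin 2))} (hd : Dense (⋃ i, U i)) :
    ∀ T : ℂ → Set (Fin 6), Irr (fun i => φ ⁻¹' U i) T → Mn (fun i => φ ⁻¹' U i) T →
      ∀ z m, T z = {m}ᶜ → Alt T z m → K2 T z m → SV2 U (φ z) := by
  have hdc : Dense (⋃ i, φ ⁻¹' U i) := by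
    rw [← preimage_iUnion]
    exact hd.preimage φ.toHomeomorph.isOpenMap
  intro T hT hmin z m hm ha hi
  obtain ⟨s, ε, hε, hsw⟩ := swAt_of_iso hT ha hi.1
  exact ⟨SV_of_SwAt hT hmin hdc hm hε hsw, isoX_plane hT hi.2⟩

end Vale.Agent.P032.H535
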