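import Vale.Agent.P032.R2.H306.DiscPair
import Vale.Agent.P032.Words6.H306.SixLoc
import Vale.Agent.P032.Words6.H926.Tab35
import Vale.Agent.P032.S5.H926.FiveLoc
import Vale.Agent.P032.R2.H616.ActOf

/-!
# P032: what is missing for seven colours without any regularity

Frame: `Irr U T` and `Mn U T` (no local finiteness, no map).  Two open statements:
`NoDW` : no two-pair point; `NoXW` : without two-pair points no point with at least five colours has
a point with at least four colours at distance one.
They exclude six colours for the plane.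
-/

open Set Filter Topology Metric

noncomputable section

namespace Vale.Agent.P032.H535

open Vale.Agent.P032.Six

/-- no two-pair points -/
def NoDW : Prop :=
  ∀ (U : Fin 6 → Set ℂ) (T : ℂ → Set (Fin 6)), Irr U T → Mn U T →
    ∀ z a b c d, DPt T z a b c d → False

/-- without two-pair points: no unit pair of a point with at least five colours and a point with at
least four colours -/
def NoXW : Prop :=
  ∀ (U : Fin 6 → Set ℂ) (T : ℂ → Set (Fin 6)), Irr U T → Mn U T →
    (∀ z a b c d, DPt T z a b c d → False) →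
    ∀ z v, dist z v = 1 → 5 ≤ (T z).ncard → 4 ≤ (T v).ncard → False

theorem noSix : S5.H843.NoSix :=
  R2.H306.noSix_of (Words6.H306.no_six_loc_of Words6.H926.tab35) R2.H616.actLoc

/-- the frame is impossible -/
theorem no_frame (hD : NoDW) (hX : NoXW) {U : Fin 6 → Set ℂ} {T : ℂ → Set (Fin 6)}
    (h : Irr U T) (hmin : Mn U T) : False :=
  S5.H843.core6 S5.H229.no_five noSix h hmin fun z v h1 h2 h3 => by
    rcases h3 with h3 | ⟨a, b, c, d, h3⟩
    · exact hX U T h hmin (hD U T h hmin) z v h1 h3 h2
    · exact hD U T h hmin z a b c d h3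

/-- no two-pair point with a point of at least four colours at distance one -/
def NoDV : Prop :=
  ∀ (U : Fin 6 → Set ℂ) (T : ℂ → Set (Fin 6)), Irr U T → Mn U T →
    ∀ z v a b c d, DPt T z a b c d → dist z v = 1 → 4 ≤ (T v).ncard → False

/-- if all two-pair points have clean circles: no unit pair of a point with at least five colours
and a point with at least four colours -/
def NoXV : Prop :=
  ∀ (U : Fin 6 → Set ℂ) (T : ℂ → Set (Fin 6)), Irr U T → Mn U T →
    (∀ z v a b c d, DPt T z a b c d → dist z v = 1 → 4 ≤ (T v).ncard → False) →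
    ∀ z v, dist z v = 1 → 5 ≤ (T z).ncard → 4 ≤ (T v).ncard → False

/-- without two-pair points: no points with more than four colours -/
def NoX56 : Prop :=
  ∀ (U : Fin 6 → Set ℂ) (T : ℂ → Set (Fin 6)), Irr U T → Mn U T →
    (∀ z a b c d, DPt T z a b c d → False) → ∀ z, 5 ≤ (T z).ncard → False

theorem NoDW.noDV (hD : NoDW) : NoDV := fun U T h hmin z _ a b c d hz _ _ =>
  hD U T h hmin z a b c d hz

theorem NoXW.noXV (hD : NoDW) (hX : NoXW) : NoXV := fun U T h hmin _ =>
  hX U T h hmin (hD U T h hmin)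

theorem NoX56.noXW (hX : NoX56) : NoXW := fun U T h hmin hD z _ _ hz _ => hX U T h hmin hD z hz

/-- the frame is impossible, pair form -/
theorem no_frame_pair (hD : NoDV) (hX : NoXV) {U : Fin 6 → Set ℂ} {T : ℂ → Set (Fin 6)}
    (h : Irr U T) (hmin : Mn U T) : False :=
  S5.H843.core6 S5.H229.no_five noSix h hmin fun z v h1 h2 h3 => by
    rcases h3 with h3 | ⟨a, b, c, d, h3⟩
    · exact hX U T h hmin (hD U T h hmin) z v h1 h3 h2
    · exact hD U T h hmin z v a b c d h3 h1 h2

/-- **six open sets without unit distances have no dense union**, from the statement that the frame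
is impossible -/
theorem not_dense_of
    (H : ∀ (U : Fin 6 → Set ℂ) (T : ℂ → Set (Fin 6)), Irr U T → Mn U T → False)
    (V : Fin 6 → Set ℂ) (hV : ∀ i, IsOpen (V i))
    (h : ∀ i, ∀ x ∈ V i, ∀ y ∈ V i, dist x y ≠ 1) (hd : Dense (⋃ i, V i)) : False := by
  choose U hVU hU hmax using fun i => exists_maximal (V i) (hV i) (h i)
  have hM := Mx.of_max hU (hd.mono (iUnion_mono hVU)) hmax
  obtain ⟨T, hT, hmin, -⟩ := S5.H926.exists_irr_min_le_of hM (fun i x hx => (hmax i x).2 hx)
    isClosed_univ (m := 6) (by norm_num) fun z _ _ => ⟨univ, by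
      rw [Set.ncard_univ, Nat.card_eq_fintype_card, Fintype.card_fin],
      Eventually.of_forall fun w => by
        by_cases hw : w ∈ XX U
        · obtain ⟨i, hi⟩ := hM.Kst_nonempty w
          exact ⟨i, mem_univ i, Or.inr ⟨hw, Kst_sub w hi⟩⟩
        · have h1 : ∃ j, w ∈ U j := by simpa [XX] using hw
          obtain ⟨j, hj⟩ := h1
          exact ⟨j, mem_univ j, Or.inl hj⟩⟩
  exact H U T hT hmin

theorem not_dense (hD : NoDW) (hX : NoXW) (V : Fin 6 → Set ℂ) (hV : ∀ i, IsOpen (V i))
    (h : ∀ i, ∀ x ∈ V i, ∀ y ∈ V i, dist x y ≠ 1) (hd : Dense (⋃ i, V i)) : False :=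
  not_dense_of (fun _ _ h1 h2 => no_frame hD hX h1 h2) V hV h hd

theorem not_dense_pair (hD : NoDV) (hX : NoXV) (V : Fin 6 → Set ℂ) (hV : ∀ i, IsOpen (V i))
    (h : ∀ i, ∀ x ∈ V i, ∀ y ∈ V i, dist x y ≠ 1) (hd : Dense (⋃ i, V i)) : False :=
  not_dense_of (fun _ _ h1 h2 => no_frame_pair hD hX h1 h2) V hV h hd

end Vale.Agent.P032.H535
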